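import Vale.Agent.P141.H677.SlotR
import Vale.Agent.P141.H124.LagN
import Vale.Agent.P141.H58.EWn
import Vale.Agent.P141.H841.SlotB

/-!
# P141, line (A): the moves of a slot of a coarser scale against the slot `C` of the time `k`

The weight at the time `k` is the square of the killed input, which vanishes at the time `0`, has
small lines on the cells of the scale `k` and lives on the unstopped squares of the scale `k`.

* `kF_line0` : the lines at the time `k`;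
* `lag_red` : every lag by the re-indexed weight;
* `qL_le`, `q2L_le` : the left sides of the fields `qL`, `q2L` below the numbers of the weight.
-/

namespace Vale.Agent.P141.H627

open Finset Matrix
open Vale.Agent.P141.PL (Pt iv hs ix mem_iv ix_ix cb mem_cb cx card_iv)
open Vale.Agent.P141.PL.H315 (Tri)
open Vale.Agent.P141.H48 (US ES BSl sst)
open Vale.Agent.P141.H43 (avv nsq nsq_nonneg)
open Vale.Agent.P141.H124 (lagW lagW_add lagW_nonneg lagW_cell lagW_al lag_le)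
open Vale.Agent.P141.H677 (kF rt)
open Vale.Agent.P141.H677.Sk (FamA FamV Slt av FDs)

noncomputable section

open scoped Classical

variable {ι : Type} [Fintype ι] [DecidableEq ι]

/-- the lines of the killed input of the time `k` on the cells of the scale `k` -/
theorem kF_line0 {Λ e cP : ℝ} {a : ℤ × ℤ → ℝ} {n K : ℕ} {F : ℕ → Pt → ℝ} {Q : ℕ → Pt → Prop}
    (B : BSl n e cP F Q) (he : 0 ≤ e) {k : ℕ} (hk : k ≤ n) (j x1 x3 : ℤ) :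
    ∑ x0 ∈ iv k j, kF Λ a K F k (x0, x1, x3) ^ 2 ≤ e * 2 ^ k := by
  rcases Nat.eq_zero_or_pos k with rfl | h
  · have h1 : ∑ x0 ∈ iv 0 j, kF Λ a K F 0 (x0, x1, x3) ^ 2 = 0 := by
      refine sum_eq_zero fun x0 _ => ?_
      unfold H677.kF
      rw [if_pos (Or.inl rfl)]
      norm_num
    rw [h1]
    positivity
  · obtain ⟨m, rfl⟩ : ∃ m, k = m + 1 := ⟨k - 1, by omega⟩
    have h1 := H876.wt_cell (W := fun x0 => kF Λ a K F (m + 1) (x0, x1, x3) ^ 2)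
      (fun _ => sq_nonneg _) (fun i => H58.kF_line B he (by omega : m < n) i x1 x3) (m + 1) j
    have e1 : m - (m + 1) = 0 := by omega
    rw [e1, pow_zero, mul_one] at h1
    exact h1

/-- the order of the sums -/
theorem reord (A X Z : Finset ℤ) (R : Finset ℕ) (g : ℤ → ℕ → ℤ → ℤ → ℝ) :
    ∑ x0 ∈ A, ∑ k ∈ R, ∑ x ∈ X, ∑ z ∈ Z, g x0 k x z =
      ∑ x ∈ X, ∑ z ∈ Z, ∑ k ∈ R, ∑ x0 ∈ A, g x0 k x z := by
  calc ∑ x0 ∈ A, ∑ k ∈ R, ∑ x ∈ X, ∑ z ∈ Z, g x0 k x z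
      = ∑ x0 ∈ A, ∑ x ∈ X, ∑ z ∈ Z, ∑ k ∈ R, g x0 k x z := by
        refine sum_congr rfl fun x0 _ => ?_
        rw [sum_comm]
        exact sum_congr rfl fun x _ => sum_comm
    _ = ∑ x ∈ X, ∑ x0 ∈ A, ∑ z ∈ Z, ∑ k ∈ R, g x0 k x z := sum_comm
    _ = ∑ x ∈ X, ∑ z ∈ Z, ∑ x0 ∈ A, ∑ k ∈ R, g x0 k x z :=
        sum_congr rfl fun x _ => sum_comm
    _ = _ := sum_congr rfl fun x _ => sum_congr rfl fun z _ => sum_comm

/-- **Every lag by the re-indexed weight.** -/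
theorem lag_red (A X Z : Finset ℤ) (N l : ℕ) {W F : ℤ → ℕ → ℤ → ℤ → ℝ}
    (hW : ∀ x k x0 z, 0 ≤ W x k x0 z) (hF : ∀ x k x0 z, 0 ≤ F x k x0 z) :
    ∑ x0 ∈ A, ∑ k ∈ range (N - l), ∑ x ∈ X, ∑ z ∈ Z, W x k x0 z * F x (k + l) x0 z ≤
      ∑ x ∈ X, ∑ z ∈ Z, ∑ k ∈ range N, ∑ x0 ∈ A, lagW l (W x) k x0 z * F x k x0 z := by
  rw [reord A X Z (range (N - l)) fun x0 k x z => W x k x0 z * F x (k + l) x0 z]
  exact sum_le_sum fun x _ => lag_le (hW x) (hF x) l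

/-- the weight of the lag `l` -/
def WL (Λ : ℝ) (a : ℤ × ℤ → ℝ) (K : ℕ) (F : ℕ → Pt → ℝ) (l : ℕ) (x1 : ℤ) : ℕ → ℤ → ℤ → ℝ :=
  lagW l fun k x0 z => kF Λ a K F k (x0, x1, z) ^ 2

theorem WL_nonneg (Λ : ℝ) (a : ℤ × ℤ → ℝ) (K : ℕ) (F : ℕ → Pt → ℝ) (l : ℕ) (x1 : ℤ) (k : ℕ)
    (x0 z : ℤ) : 0 ≤ WL Λ a K F l x1 k x0 z :=
  lagW_nonneg (fun _ _ _ => sq_nonneg _) _ _ _ _

theorem WL_cell {Λ e cP : ℝ} {a : ℤ × ℤ → ℝ} {n K : ℕ} {F : ℕ → Pt → ℝ} {Q : ℕ → Pt → Prop}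
    (B : BSl n e cP F Q) (he : 0 ≤ e) (hK : K ≤ n) (l : ℕ) (x1 : ℤ) :
    ∀ k ≤ K, ∀ j y, ∑ x0 ∈ iv k j, WL Λ a K F l x1 k x0 y ≤ e * 2 ^ k :=
  lagW_cell he (fun _ _ _ => sq_nonneg _)
    (fun k hk j y => kF_line0 B he (hk.trans hK) j x1 y) l

section data

variable {q : H401.Num} {n K : ℕ} {ez : ℝ} {F1 F2 F3 : ℕ → Pt → ℝ} {x : Pt} {s r : ℝ} {U : Tri}
  {g : ℤ → ℤ → ℝ} {u v : ℤ → ℤ → ι → ℝ} {A : FamA} {b C : FamV ι} {Q1 Q2 Q3 : ℕ → Pt → Prop}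
  {v' : ℤ → ℤ → ι → ℝ}

theorem WL_al (Λ : ℝ) (F : ℕ → Pt → ℝ) (l : ℕ) (x1 : ℤ) (hΛ : Λ = q.Lm) :
    ∀ y ∈ iv K (ix K x.2.2), ∀ k ≤ K, ¬ H841.alF q K x U x1 k y →
      ∀ x0, WL Λ U.2.1 K F l x1 k x0 y = 0 := by
  intro y hy k hk h x0
  subst hΛ
  refine lagW_al (al := H841.alF q K x U x1) (y := y)
    (fun i hi => H841.upF q K x U x1 y hy i hi) (fun k _ hd x0 => ?_) l k hk h x0
  have h2 : sst q.Lm U.2.1 K k x1 y := by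
    by_contra h3
    exact hd ⟨mem_iv.1 hy, h3⟩
  change kF q.Lm U.2.1 K F k (x0, x1, y) ^ 2 = 0
  rw [H58.kF_dead F h2]
  norm_num

variable {Al : ℕ → Pt → Prop} {o : ℤ} {l0 : ℝ} {R : Slt ι} {sx : ℤ → ℕ → ℤ → ℤ → ℝ}

/-- the half difference of the slot on the shifted grid in the letters of `H841.Lay` -/
def Dq (l0 : ℝ) (o : ℤ) (K : ℕ) (M2 : ℤ) (u : ℤ → ℤ → ι → ℝ) (sx : ℤ → ℕ → ℤ → ℤ → ℝ)
    (sh x1 : ℤ) (k : ℕ) (x0 z : ℤ) : Matrix ι ι ℝ :=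
  H841.Rs (H841.Mc l0 K M2 u x1) o x1 (sx x1) K sh k x0 (ix k (z - sh)) -
    H841.Rs (H841.Mc l0 K M2 u x1) o x1 (sx x1) K sh (k + 1) x0 (ix (k + 1) (z - sh))

/-- **The field `qL` below the number of the weight.** -/
theorem qL_le (D : FDs q n ez F1 F2 F3 K x s r U g u v A b C Q1 Q2 Q3 v')
    (hs0 : ∀ x1 k a b,
      ((b, o - 2 - a - ix k x1 - b, ix k x1) : Pt) ∉ H677.sN Al o K (cx K x) (2 ^ k * a) k →
      sx x1 k a b = 0)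
    (hR : ∀ x0 j z x1, R x0 j z x1 =
      H841.Rm (H677.MT l0 (H677.KT l0 u x1)) o x1 (sx x1) K j x0 z) (sh : ℤ) (l : ℕ) :
    ∑ t ∈ rt (cx K x), ∑ x0 ∈ iv K t, ∑ k ∈ range (K - l), ∑ x1 ∈ iv K (cx K x).1,
      ∑ z ∈ iv K (cx K x).2.2,
        nsq ((av R sh x0 (k + l) z x1 - av R sh x0 (k + l + 1) z x1) *ᵥ C x0 k z x1) ≤
    ∑ t ∈ rt (cx K x), ∑ x1 ∈ iv K (cx K x).1, ∑ z ∈ iv K (cx K x).2.2, ∑ k ∈ range K,
      ∑ x0 ∈ iv K t, WL q.Lm U.2.1 K F2 l x1 k x0 z *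
        nsq (Dq l0 o K (cx K x).2.1 u sx sh x1 k x0 z *ᵥ v' x1 z) := by
  refine sum_le_sum fun t _ => ?_
  refine le_trans (le_of_eq ?_) (lag_red (iv K t) (iv K (cx K x).1) (iv K (cx K x).2.2) K l
    (W := fun x1 k x0 z => kF q.Lm U.2.1 K F2 k (x0, x1, z) ^ 2)
    (F := fun x1 k x0 z => nsq (Dq l0 o K (cx K x).2.1 u sx sh x1 k x0 z *ᵥ v' x1 z))
    (fun _ _ _ _ => sq_nonneg _) (fun _ _ _ _ => nsq_nonneg _))
  refine sum_congr rfl fun x0 _ => sum_congr rfl fun k _ => sum_congr rfl fun x1 _ =>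
    sum_congr rfl fun z _ => ?_
  rw [D.C_eq, mulVec_smul, H841.nsq_smul, H841.av_cut hs0 hR, H841.av_cut hs0 hR]
  rfl

/-- **The field `q2L` below the number of the weight.** -/
theorem q2L_le (D : FDs q n ez F1 F2 F3 K x s r U g u v A b C Q1 Q2 Q3 v')
    (hs0 : ∀ x1 k a b,
      ((b, o - 2 - a - ix k x1 - b, ix k x1) : Pt) ∉ H677.sN Al o K (cx K x) (2 ^ k * a) k →
      sx x1 k a b = 0)
    (hR : ∀ x0 j z x1, R x0 j z x1 =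
      H841.Rm (H677.MT l0 (H677.KT l0 u x1)) o x1 (sx x1) K j x0 z) (sh : ℤ) (l : ℕ) :
    ∑ t ∈ rt (cx K x), ∑ x0 ∈ iv K t, ∑ k ∈ range (K - l), ∑ x1 ∈ iv K (cx K x).1,
      ∑ z ∈ iv K (cx K x).2.2,
        nsq ((av R sh x0 (k + l) z x1 - av R sh x0 (k + l + 1) z x1) *ᵥ
          (av R sh x0 (k + l + 1) z x1 *ᵥ C x0 k z x1)) ≤
    ∑ t ∈ rt (cx K x), ∑ x1 ∈ iv K (cx K x).1, ∑ z ∈ iv K (cx K x).2.2, ∑ k ∈ range K,
      ∑ x0 ∈ iv K t, WL q.Lm U.2.1 K F2 l x1 k x0 z *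
        nsq (Dq l0 o K (cx K x).2.1 u sx sh x1 k x0 z *ᵥ
          (H841.Rs (H841.Mc l0 K (cx K x).2.1 u x1) o x1 (sx x1) K sh (k + 1) x0
            (ix (k + 1) (z - sh)) *ᵥ v' x1 z)) := by
  refine sum_le_sum fun t _ => ?_
  refine le_trans (le_of_eq ?_) (lag_red (iv K t) (iv K (cx K x).1) (iv K (cx K x).2.2) K l
    (W := fun x1 k x0 z => kF q.Lm U.2.1 K F2 k (x0, x1, z) ^ 2)
    (F := fun x1 k x0 z => nsq (Dq l0 o K (cx K x).2.1 u sx sh x1 k x0 z *ᵥ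
      (H841.Rs (H841.Mc l0 K (cx K x).2.1 u x1) o x1 (sx x1) K sh (k + 1) x0
        (ix (k + 1) (z - sh)) *ᵥ v' x1 z)))
    (fun _ _ _ _ => sq_nonneg _) (fun _ _ _ _ => nsq_nonneg _))
  refine sum_congr rfl fun x0 _ => sum_congr rfl fun k _ => sum_congr rfl fun x1 _ =>
    sum_congr rfl fun z _ => ?_
  rw [D.C_eq, mulVec_smul, mulVec_smul, H841.nsq_smul, H841.av_cut hs0 hR, H841.av_cut hs0 hR]
  rfl

end data

end

end Vale.Agent.P141.H627
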