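import Vale.Agent.P141.H627.LagQ
import Vale.Agent.P141.H841.SlotQ
import Vale.Agent.P141.H677.RawC

/-!
# P141, line (A): the field `qL` of the numbers of a slot

* `ctx_of` : the context of `H841.SlotQ` from the data of one slot, the mask of the time `k`;
* `V_le`, `Th_two` : the class numbers as powers of `t / r`;
* `fld_qL : RawFieldC FQL`.
-/

namespace Vale.Agent.P141.H627

open Finset Matrix
open Vale.Agent.P141.PL (Pt iv hs ix mem_iv ix_ix cb mem_cb cx card_iv)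
open Vale.Agent.P141.PL.H315 (Tri)
open Vale.Agent.P141.H48 (US ES BSl sst)
open Vale.Agent.P141.H43 (avv nsq nsq_nonneg)
open Vale.Agent.P141.H677 (kF rt)
open Vale.Agent.P141.H677.Sk (FamA FamV Slt av FDs FD SDat SlotN Raw RawFieldC FQL FQ2L cst lam1)
open Vale.Agent.P141.H841 (Ctx alF)

noncomputable section

open scoped Classical

set_option linter.unusedSectionVars false

variable {ι : Type} [Fintype ι] [DecidableEq ι]

/-- the level of the fibres against the cut of the flow -/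
theorem V_le {q : H401.Num} {s r : ℝ} (ht : 0 < q.t) (ht1 : q.t ≤ 1) (hs : 0 < s) (hr : 1 ≤ r)
    (he0 : 0 ≤ q.e0) : lam1 q s r / (2 * q.lam s r) ≤ (q.t / r) ^ (-10 : ℝ) := by
  have hr0 : 0 < r := by linarith
  have hS : 0 < √s := Real.sqrt_pos.2 hs
  unfold H677.Sk.lam1 H401.Num.lam
  rw [Real.div_rpow ht.le hr0.le, div_le_div_iff₀ (by positivity) (by positivity)]
  have e1 : q.t ^ (-10 : ℝ) * q.t ^ (2 - q.e0) = q.t ^ (-8 - q.e0) := by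
    rw [← Real.rpow_add ht]
    congr 1
    ring
  have e2 : q.t ^ (-8 : ℝ) ≤ q.t ^ (-8 - q.e0) :=
    Real.rpow_le_rpow_of_exponent_ge ht ht1 (by linarith)
  have e3 : r ^ (8 : ℝ) * r ^ (-10 : ℝ) ≤ 1 := by
    rw [← Real.rpow_add hr0]
    exact Real.rpow_le_one_of_one_le_of_nonpos hr (by norm_num)
  have e4 : 1 ≤ r ^ q.e0 := Real.one_le_rpow hr he0
  have t0 : 0 < q.t ^ (-8 : ℝ) := Real.rpow_pos_of_pos ht _
  have t1 : 0 < q.t ^ (-8 - q.e0) := Real.rpow_pos_of_pos ht _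
  calc q.t ^ (-8 : ℝ) * √s * r ^ (8 : ℝ) * r ^ (-10 : ℝ)
      = q.t ^ (-8 : ℝ) * √s * (r ^ (8 : ℝ) * r ^ (-10 : ℝ)) := by ring
    _ ≤ q.t ^ (-8 - q.e0) * √s * 1 := by
        refine mul_le_mul (mul_le_mul_of_nonneg_right e2 hS.le) e3 (by positivity) (by positivity)
    _ ≤ q.t ^ (-8 - q.e0) * √s * (2 * r ^ q.e0) :=
        mul_le_mul_of_nonneg_left (by linarith) (by positivity)
    _ = q.t ^ (-10 : ℝ) * (2 * (q.t ^ (2 - q.e0) * √s * r ^ q.e0)) := by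
        rw [← e1]
        ring

theorem two_pow {t r : ℝ} (ht : 0 < t) (hr : 0 < r) : (r / t) ^ 2 = (t / r) ^ (-2 : ℝ) := by
  rw [Real.rpow_neg (div_pos ht hr).le, ← Real.inv_rpow (div_pos ht hr).le, inv_div]
  norm_cast

/-- the row number of the class -/
theorem row_le {q : H401.Num} {s r : ℝ} (ht : 0 < q.t) (ht1 : q.t ≤ 1) (hs : 0 < s) (hr : 1 ≤ r)
    (he0 : 0 ≤ q.e0) : r * √s ≤ q.lam s r * (r / q.t) ^ 2 := by
  have hr0 : 0 < r := by linarith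
  have hS : 0 < √s := Real.sqrt_pos.2 hs
  unfold H401.Num.lam
  have e1 : q.t ^ (2 - q.e0) = q.t ^ 2 * q.t ^ (-q.e0) := by
    rw [← Real.rpow_natCast q.t 2, ← Real.rpow_add ht]
    congr 1
  have e2 : 1 ≤ q.t ^ (-q.e0) := Real.one_le_rpow_of_pos_of_le_one_of_nonpos ht ht1 (by linarith)
  have e4 : 1 ≤ r ^ q.e0 := Real.one_le_rpow hr he0
  have e5 : q.t ^ (2 - q.e0) * √s * r ^ q.e0 * (r / q.t) ^ 2 =
      r ^ 2 * √s * (q.t ^ (-q.e0) * r ^ q.e0) := by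
    rw [e1]
    field_simp
  rw [e5]
  have e6 : 1 ≤ q.t ^ (-q.e0) * r ^ q.e0 := one_le_mul_of_one_le_of_one_le e2 e4
  have e7 : r ≤ r ^ 2 := by nlinarith
  calc r * √s ≤ r ^ 2 * √s := mul_le_mul_of_nonneg_right e7 hS.le
    _ = r ^ 2 * √s * 1 := by ring
    _ ≤ _ := mul_le_mul_of_nonneg_left e6 (by positivity)

section data

variable {q : H401.Num} {n K : ℕ} {ez : ℝ} {F1 F2 F3 : ℕ → Pt → ℝ} {o : ℤ} {x : Pt} {s r : ℝ}
  {U : Tri} {g : ℤ → ℤ → ℝ} {u v : ℤ → ℤ → ι → ℝ} {A : FamA} {b C : FamV ι}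
  {Q1 Q2 Q3 : ℕ → Pt → Prop} {v' : ℤ → ℤ → ι → ℝ} {R : Slt ι} {κ E : ℝ}
  {sx : ℤ → ℕ → ℤ → ℤ → ℝ}

/-- **The context of `H841.SlotQ`**, mask of the time `k`. -/
theorem ctx_of (hS : SDat q n ez F1 F2 F3 o K x s r U g u v A b C R κ E)
    (D : FDs q n ez F1 F2 F3 K x s r U g u v A b C Q1 Q2 Q3 v')
    (s1 : ∀ x1 k a b, |sx x1 k a b| ≤ 1)
    (s0 : ∀ x1 k a b,
      ((b, o - 2 - a - ix k x1 - b, ix k x1) : Pt) ∉ H677.sN (q.al U K) o K (cx K x) (2 ^ k * a) k →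
      sx x1 k a b = 0)
    (hR : ∀ x0 j z x1, R x0 j z x1 =
      H841.Rm (H677.MT (q.lam s r) (H677.KT (q.lam s r) u x1)) o x1 (sx x1) K j x0 z) :
    Ctx K x s r (q.L * q.t ^ (2 - q.c) * √s) (q.lam s r) U g u v v' (q.al U K) o R κ E sx
      (lam1 q s r) ((r / q.t) ^ 2 / 2) (alF q K x U) where
  cls := hS.cls.toCls
  l0 := by
    have := hS.t0
    have := hS.r1
    have hS' : 0 < √s := Real.sqrt_pos.2 hS.s0
    have h1 : 0 < q.t ^ (2 - q.e0) := Real.rpow_pos_of_pos hS.t0 _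
    have h2 : 0 < r ^ q.e0 := Real.rpow_pos_of_pos (by linarith) _
    unfold H401.Num.lam
    positivity
  P0 := by
    have h1 : 0 < q.t ^ (2 - q.c) := Real.rpow_pos_of_pos hS.t0 _
    have := hS.L1
    positivity
  ori := hS.ho
  hv := H841.v'_le D
  s1 := s1
  s0 := s0
  hR := hR
  cap := hS.slt.cap
  en := hS.slt.en
  E0 := hS.E0.le
  V0 := by
    have h1 : 0 < q.t ^ (-8 : ℝ) := Real.rpow_pos_of_pos hS.t0 _
    have h2 : 0 < r ^ (8 : ℝ) := Real.rpow_pos_of_pos (by linarith [hS.r1]) _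
    unfold H677.Sk.lam1
    positivity
  fib := fun _ hx1 => H841.fibF D hx1
  Th := H841.Th_le hS.cls hS.t0 (by
    have := hS.r1
    have hS' : 0 < √s := Real.sqrt_pos.2 hS.s0
    have h1 : 0 < q.t ^ (2 - q.e0) := Real.rpow_pos_of_pos hS.t0 _
    have h2 : 0 < r ^ q.e0 := Real.rpow_pos_of_pos (by linarith) _
    unfold H401.Num.lam
    positivity) (row_le hS.t0 hS.t1 hS.s0 hS.r1 hS.e00.le)

end data

/-- the signed end -/
theorem scal_s {e D' L3 δ Vl E Θ p2 A κ y12 X : ℝ} (he : 0 ≤ e) (hD : 0 ≤ D') (hL : 1 ≤ L3)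
    (hδ : 0 < δ) (hE : 0 ≤ E) (hV : Vl ≤ y12) (hVT : Vl * Θ ≤ y12) (hy : 0 ≤ y12)
    (hp2 : 0 < p2) (hA : 1 ≤ A) (hκ : 1 ≤ κ)
    (hX : X ≤ 41472 * e * L3 * (D' * (δ + Vl * (E / δ + (1 + Θ / δ) / p2))) +
      6 * e * (E * D')) :
    X ≤ 41472 * (e * D') * (L3 * (A * δ + y12 * E / δ + A * E +
      (1 + κ) ^ 2 * y12 * (1 + 1 / δ) / p2)) := by
  have t1 : δ ≤ A * δ := by nlinarith
  have t3 : E ≤ A * E := by nlinarith
  have t2 : Vl * (E / δ) ≤ y12 * E / δ := by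
    rw [mul_div_assoc]
    exact mul_le_mul_of_nonneg_right hV (by positivity)
  have t4 : Vl * ((1 + Θ / δ) / p2) ≤ (1 + κ) ^ 2 * y12 * (1 + 1 / δ) / p2 := by
    have e1 : Vl * ((1 + Θ / δ) / p2) = (Vl + Vl * Θ / δ) / p2 := by ring
    rw [e1]
    refine div_le_div_of_nonneg_right ?_ hp2.le
    have e2 : Vl * Θ / δ ≤ y12 / δ := div_le_div_of_nonneg_right hVT hδ.le
    have e3 : y12 * (1 + 1 / δ) ≤ (1 + κ) ^ 2 * (y12 * (1 + 1 / δ)) :=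
      le_mul_of_one_le_left (by positivity) (by nlinarith)
    calc Vl + Vl * Θ / δ ≤ y12 + y12 / δ := add_le_add hV e2
      _ = y12 * (1 + 1 / δ) := by ring
      _ ≤ _ := e3.trans (le_of_eq (by ring))
  have t5 : δ + Vl * (E / δ + (1 + Θ / δ) / p2) + E ≤
      A * δ + y12 * E / δ + A * E + (1 + κ) ^ 2 * y12 * (1 + 1 / δ) / p2 := by
    rw [mul_add]
    linarith
  have t6 : 6 * e * (E * D') ≤ 41472 * e * L3 * (D' * E) := by
    have h1 : 0 ≤ e * (E * D') := by positivity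
    nlinarith
  calc X ≤ 41472 * e * L3 * (D' * (δ + Vl * (E / δ + (1 + Θ / δ) / p2))) +
        41472 * e * L3 * (D' * E) := hX.trans (add_le_add le_rfl t6)
    _ = 41472 * (e * D') * L3 * (δ + Vl * (E / δ + (1 + Θ / δ) / p2) + E) := by ring
    _ ≤ 41472 * (e * D') * L3 * (A * δ + y12 * E / δ + A * E +
          (1 + κ) ^ 2 * y12 * (1 + 1 / δ) / p2) :=
        mul_le_mul_of_nonneg_left t5 (by positivity)
    _ = _ := by ring

/-- the blind end -/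
theorem scal_b {e D' Lr Vl Pl b y p2 A κ y12 X : ℝ} (he : 0 ≤ e) (hD : 0 ≤ D') (hL : 0 ≤ Lr)
    (hV : Vl ≤ y12) (hP : Pl = A / 2 * (b * y)) (hb : 0 ≤ b) (hy' : 0 ≤ y)
    (hy : 0 ≤ y12) (hp2 : 0 < p2) (hA : 1 ≤ A) (hκ : 1 ≤ κ)
    (hX : X ≤ 3 * (e * ((386 + 128 * Lr ^ 3) * Pl +
      1024 * ((Lr + 2) ^ 2 + 2) / p2 * Vl) * D')) :
    X ≤ 41472 * (e * D') * ((1 + Lr) ^ 3 * (b * A * y + (1 + κ) ^ 2 * y12 / p2)) := by
  have c1 : 386 + 128 * Lr ^ 3 ≤ 514 * (1 + Lr) ^ 3 := by nlinarith [sq_nonneg Lr]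
  have c2 : (Lr + 2) ^ 2 + 2 ≤ 6 * (1 + Lr) ^ 3 := by nlinarith [sq_nonneg Lr, pow_nonneg hL 3]
  have p0 : 0 ≤ Pl := by
    rw [hP]
    positivity
  have t1 : (386 + 128 * Lr ^ 3) * Pl ≤ (1 + Lr) ^ 3 * (257 * (b * A * y)) := by
    refine (mul_le_mul_of_nonneg_right c1 p0).trans (le_of_eq ?_)
    rw [hP]
    ring
  have t2 : 1024 * ((Lr + 2) ^ 2 + 2) / p2 * Vl ≤
      (1 + Lr) ^ 3 * (6144 * ((1 + κ) ^ 2 * y12 / p2)) := by
    have h1 : 1024 * ((Lr + 2) ^ 2 + 2) / p2 * Vl ≤ 1024 * (6 * (1 + Lr) ^ 3) / p2 * y12 :=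
      (mul_le_mul_of_nonneg_left hV (by positivity)).trans (mul_le_mul_of_nonneg_right
        (div_le_div_of_nonneg_right (by linarith) hp2.le) hy)
    refine h1.trans ?_
    have h2 : 1024 * (6 * (1 + Lr) ^ 3) / p2 * y12 = (1 + Lr) ^ 3 * (6144 * (y12 / p2)) := by ring
    rw [h2]
    refine mul_le_mul_of_nonneg_left ?_ (by positivity)
    have h3 : 0 ≤ y12 / p2 := by positivity
    have h4 : (1 + κ) ^ 2 * y12 / p2 = (1 + κ) ^ 2 * (y12 / p2) := by ring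
    rw [h4]
    have h5 : y12 / p2 ≤ (1 + κ) ^ 2 * (y12 / p2) := le_mul_of_one_le_left h3 (by nlinarith)
    linarith
  have t3 : (386 + 128 * Lr ^ 3) * Pl + 1024 * ((Lr + 2) ^ 2 + 2) / p2 * Vl ≤
      (1 + Lr) ^ 3 * (6144 * (b * A * y + (1 + κ) ^ 2 * y12 / p2)) := by
    have h6 : 0 ≤ (1 + Lr) ^ 3 * (b * A * y) := by positivity
    nlinarith
  have t4 : 0 ≤ (1 + Lr) ^ 3 * (b * A * y + (1 + κ) ^ 2 * y12 / p2) := by positivity
  calc X ≤ 3 * (e * ((386 + 128 * Lr ^ 3) * Pl +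
        1024 * ((Lr + 2) ^ 2 + 2) / p2 * Vl) * D') := hX
    _ = 3 * (e * D') * ((386 + 128 * Lr ^ 3) * Pl +
        1024 * ((Lr + 2) ^ 2 + 2) / p2 * Vl) := by ring
    _ ≤ 3 * (e * D') * ((1 + Lr) ^ 3 * (6144 * (b * A * y + (1 + κ) ^ 2 * y12 / p2))) :=
        mul_le_mul_of_nonneg_left t3 (by positivity)
    _ = 18432 * ((e * D') * ((1 + Lr) ^ 3 * (b * A * y + (1 + κ) ^ 2 * y12 / p2))) := by ring
    _ ≤ 41472 * ((e * D') * ((1 + Lr) ^ 3 * (b * A * y + (1 + κ) ^ 2 * y12 / p2))) := by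
        refine mul_le_mul_of_nonneg_right (by norm_num) ?_
        exact mul_nonneg (by positivity) t4
    _ = _ := by ring

/-- **The field `qL`.** -/
theorem fld_qL : RawFieldC FQL := by
  refine ⟨3, 12, 12, fun p => p.L, fun _ => 41472, ?_⟩
  intro ι _ _ q n ez F1 F2 F3 o K x s r U g u v A b C R κ E hS h hh
  refine ⟨by norm_num, fun l => ?_⟩
  obtain ⟨Q1, Q2, Q3, v', D⟩ := hS.dat
  obtain ⟨sx, s1, s0, hR⟩ := hS.slt.sgn
  have c := ctx_of hS D s1 s0 hR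
  have hez : 0 ≤ ez := hS.hF2.1
  have hr0 : 0 < r := by linarith [hS.r1]
  have hy : 0 < q.t / r := div_pos hS.t0 hr0
  have hy1 : q.t / r ≤ 1 := by
    rw [div_le_one hr0]
    linarith [hS.t1, hS.r1]
  have hD' : 0 ≤ s * 8 ^ K := mul_nonneg hS.s0.le (by positivity)
  have hV := V_le (q := q) hS.t0 hS.t1 hS.s0 hS.r1 hS.e00.le
  have y12 : (q.t / r) ^ (-10 : ℝ) ≤ (q.t / r) ^ (-12 : ℝ) :=
    Real.rpow_le_rpow_of_exponent_ge hy hy1 (by norm_num)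
  have y0 : 0 < (q.t / r) ^ (-12 : ℝ) := Real.rpow_pos_of_pos hy _
  have y00 : 0 < (q.t / r) ^ (-10 : ℝ) := Real.rpow_pos_of_pos hy _
  have y2 : 0 < (q.t / r) ^ (-2 : ℝ) := Real.rpow_pos_of_pos hy _
  have hVT : lam1 q s r / (2 * q.lam s r) * ((r / q.t) ^ 2 / 2) ≤ (q.t / r) ^ (-12 : ℝ) := by
    rw [two_pow hS.t0 hr0]
    have e1 : (q.t / r) ^ (-12 : ℝ) = (q.t / r) ^ (-10 : ℝ) * (q.t / r) ^ (-2 : ℝ) := by
      rw [← Real.rpow_add hy]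
      norm_num
    rw [e1]
    refine mul_le_mul hV (by linarith) (by positivity) y00.le
  have al0 : ∀ x1 ∈ iv K (cx K x).1, ∀ y ∈ iv K (cx K x).2.2, ∀ k ≤ K,
      ¬ alF q K x U x1 k y → ∀ x0, WL q.Lm U.2.1 K F2 l x1 k x0 y = 0 := fun x1 _ =>
    WL_al q.Lm F2 l x1 rfl
  refine ⟨fun L => ?_, fun L δ hδ => ?_⟩
  · have h1 := c.S2tb (W := fun x1 => WL q.Lm U.2.1 K F2 l x1) hez
      (fun x1 k x0 y => WL_nonneg _ _ _ _ _ _ _ _ _) (fun x1 => WL_cell D.B2 hez hS.hK l x1)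
      (fun x1 _ => H841.upF q K x U x1) al0 L h.2.2
    have h2 := (qL_le D s0 hR h.2.2 l).trans h1
    have h3 := scal_b (A := q.L) (b := q.t ^ (-q.c)) (y := (q.t / r) ^ q.e0) (κ := κ) hez hD'
      (Nat.cast_nonneg L) (hV.trans y12) (H677.Sk.m_eq hS.t0 hS.s0 hS.r1)
      (Real.rpow_nonneg hS.t0.le _) (Real.rpow_nonneg hy.le _) y0.le
      (by positivity : (0 : ℝ) < 2 ^ L) hS.L1 hS.κ1 h2
    refine h3.trans (le_of_eq ?_)
    simp only [cst]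
    ring
  · have h1 := c.S2t (W := fun x1 => WL q.Lm U.2.1 K F2 l x1) hez
      (fun x1 k x0 y => WL_nonneg _ _ _ _ _ _ _ _ _) (fun x1 => WL_cell D.B2 hez hS.hK l x1)
      (fun x1 _ => H841.upF q K x U x1) al0 L h.2.2 hδ
    have h2 := (qL_le D s0 hR h.2.2 l).trans h1
    have h3 := scal_s (A := q.L) (κ := κ) hez hD'
      (one_le_pow₀ (by have : (0 : ℝ) ≤ L := Nat.cast_nonneg L; linarith)) hδ hS.E0.le
      (hV.trans y12) hVT y0.le (by positivity : (0 : ℝ) < 2 ^ L) hS.L1 hS.κ1 h2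
    refine h3.trans (le_of_eq ?_)
    simp only [cst]
    ring

end

end Vale.Agent.P141.H627
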