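import Vale.Agent.P141.H876.ShiftA

/-!
# P141, line (A): the mass of the moving slot on the affected cells of a shifted grid, the glue

Letters of `H841.Lay` and `H876.ShiftA`.  `AF k i y` says that the point `y` is affected at the
scale `k` over the cell `i` of `x₀` (any predicate), `N k i y` is any count of the affected scales.
On the cells with a count at most `lam` the slot on the shifted grid is compared with the slot on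
the standard grid; the cells with a larger count are paid by `TM`.

* `aff_line` : one `x₁`;
* `aff_num` : the same with the number of `H876.S1`;
* `aff_sum1` : summed over `x₁`.
-/

namespace Vale.Agent.P141.H627

open Finset Matrix
open Vale.Agent.P141.PL (iv ix hs mem_iv)
open Vale.Agent.P141.H43 (avv nsq nsq_nonneg)
open Vale.Agent.P141.H841 (Rm Rs nsq_add_le)
open Vale.Agent.P141.H876 (En wn)

noncomputable section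

open scoped Classical

variable {ι : Type*} [Fintype ι]

variable {Mx : ℕ → ℤ → Matrix ι ι ℝ} {o x1 T M3 : ℤ} {n : ℕ} {s : ℕ → ℤ → ℤ → ℝ}

/-- one term -/
theorem aff_term {A B : Matrix ι ι ℝ} {w : ι → ℝ} {c : ℝ} (hc : 0 ≤ c) (P : Prop) (N lam : ℕ) :
    (if P then c * nsq (A *ᵥ w) else 0) ≤
      2 * (c * nsq ((A - B) *ᵥ w)) + 2 * (if P ∧ N ≤ lam then c * nsq (B *ᵥ w) else 0) +
        (if P ∧ lam < N then c * nsq (A *ᵥ w) else 0) := by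
  have h1 : 0 ≤ c * nsq ((A - B) *ᵥ w) := mul_nonneg hc (nsq_nonneg _)
  by_cases hP : P
  · by_cases hN : N ≤ lam
    · rw [if_pos hP, if_pos ⟨hP, hN⟩, if_neg (fun h => absurd h.2 (by omega))]
      have e1 : A *ᵥ w = (A - B) *ᵥ w + B *ᵥ w := by
        rw [sub_mulVec]
        abel
      have e2 := nsq_add_le ((A - B) *ᵥ w) (B *ᵥ w)
      rw [← e1] at e2
      have e3 := mul_le_mul_of_nonneg_left e2 hc
      linarith
    · rw [if_pos hP, if_neg (fun h => hN h.2), if_pos ⟨hP, by omega⟩]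
      linarith
  · rw [if_neg hP, if_neg (fun h => hP h.1), if_neg (fun h => hP h.1)]
    linarith

/-- **The glue at one `x₁`.** -/
theorem aff_line {Q : (ι → ℝ) → ℝ}
    (hX : ∀ a, ∑ i ∈ range n, En Mx n T x1 M3 (i + 1) a ≤ 2 ^ n * Q a)
    {W : ℕ → ℤ → ℤ → ℝ} {e : ℝ} (he : 0 ≤ e) (hW0 : ∀ k x0 y, 0 ≤ W k x0 y)
    {v : ℤ → ι → ℝ} (sh : ℤ) (AF : ℕ → ℤ → ℤ → Prop) (N : ℕ → ℤ → ℤ → ℕ) (lam : ℕ)
    (hH : ∀ y ∈ iv n M3, ∑ k ∈ range n, ∑ x0 ∈ iv n T,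
      (if AF k (ix k x0) y ∧ N k (ix k x0) y ≤ lam then
        W k x0 y * nsq (Rm Mx o x1 s n k x0 y *ᵥ v y) else 0) ≤
      lam * (e * ∑ i ∈ range n, En Mx n T x1 M3 (i + 1) (v y)))
    {DS : ℝ} (hD : ∑ y ∈ iv n M3, ∑ k ∈ range (n + 1), ∑ x0 ∈ iv n T, W k x0 y *
      nsq ((Rs Mx o x1 s n sh k x0 (ix k (y - sh)) - Rm Mx o x1 s n k x0 y) *ᵥ v y) ≤ DS)
    {TM : ℝ} (hT : ∑ k ∈ range n, ∑ x0 ∈ iv n T, ∑ y ∈ iv n M3,
      (if AF k (ix k x0) y ∧ lam < N k (ix k x0) y then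
        W k x0 y * nsq (Rs Mx o x1 s n sh k x0 (ix k (y - sh)) *ᵥ v y) else 0) ≤ TM) :
    ∑ k ∈ range n, ∑ x0 ∈ iv n T, ∑ y ∈ iv n M3,
      (if AF k (ix k x0) y then
        W k x0 y * nsq (Rs Mx o x1 s n sh k x0 (ix k (y - sh)) *ᵥ v y) else 0) ≤
      2 * DS + 2 * (lam * e * (2 ^ n * ∑ y ∈ iv n M3, Q (v y))) + TM := by
  have h1 : ∑ k ∈ range n, ∑ x0 ∈ iv n T, ∑ y ∈ iv n M3, W k x0 y *
      nsq ((Rs Mx o x1 s n sh k x0 (ix k (y - sh)) - Rm Mx o x1 s n k x0 y) *ᵥ v y) ≤ DS := by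
    refine le_trans ?_ hD
    rw [sum_comm' (s := iv n M3) (t := fun _ => range (n + 1)) (t' := range (n + 1))
      (s' := fun _ => iv n M3) (fun _ _ => by simp [and_comm])]
    calc _ ≤ ∑ k ∈ range (n + 1), ∑ x0 ∈ iv n T, ∑ y ∈ iv n M3, W k x0 y *
          nsq ((Rs Mx o x1 s n sh k x0 (ix k (y - sh)) - Rm Mx o x1 s n k x0 y) *ᵥ v y) := by
          refine sum_le_sum_of_subset_of_nonneg (range_subset_range.2 (Nat.le_succ n))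
            fun k _ _ => ?_
          exact sum_nonneg fun x0 _ => sum_nonneg fun y _ =>
            mul_nonneg (hW0 _ _ _) (nsq_nonneg _)
      _ ≤ _ := le_of_eq (sum_congr rfl fun k _ => sum_comm)
  have h2 : ∑ k ∈ range n, ∑ x0 ∈ iv n T, ∑ y ∈ iv n M3,
      (if AF k (ix k x0) y ∧ N k (ix k x0) y ≤ lam then
        W k x0 y * nsq (Rm Mx o x1 s n k x0 y *ᵥ v y) else 0) ≤
      lam * e * (2 ^ n * ∑ y ∈ iv n M3, Q (v y)) := by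
    calc _ = ∑ y ∈ iv n M3, ∑ k ∈ range n, ∑ x0 ∈ iv n T,
          (if AF k (ix k x0) y ∧ N k (ix k x0) y ≤ lam then
            W k x0 y * nsq (Rm Mx o x1 s n k x0 y *ᵥ v y) else 0) := by
          rw [sum_comm (s := iv n M3)]
          exact sum_congr rfl fun k _ => sum_comm
      _ ≤ ∑ y ∈ iv n M3, lam * (e * ∑ i ∈ range n, En Mx n T x1 M3 (i + 1) (v y)) :=
          sum_le_sum hH
      _ ≤ ∑ y ∈ iv n M3, lam * (e * (2 ^ n * Q (v y))) := by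
          refine sum_le_sum fun y _ => ?_
          exact mul_le_mul_of_nonneg_left (mul_le_mul_of_nonneg_left (hX _) he)
            (Nat.cast_nonneg _)
      _ = _ := by
          rw [mul_sum, mul_sum]
          exact sum_congr rfl fun y _ => by ring
  have h3 : ∑ k ∈ range n, ∑ x0 ∈ iv n T, ∑ y ∈ iv n M3,
      (if AF k (ix k x0) y then
        W k x0 y * nsq (Rs Mx o x1 s n sh k x0 (ix k (y - sh)) *ᵥ v y) else 0) ≤
      2 * (∑ k ∈ range n, ∑ x0 ∈ iv n T, ∑ y ∈ iv n M3, W k x0 y *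
        nsq ((Rs Mx o x1 s n sh k x0 (ix k (y - sh)) - Rm Mx o x1 s n k x0 y) *ᵥ v y)) +
      2 * (∑ k ∈ range n, ∑ x0 ∈ iv n T, ∑ y ∈ iv n M3,
        (if AF k (ix k x0) y ∧ N k (ix k x0) y ≤ lam then
          W k x0 y * nsq (Rm Mx o x1 s n k x0 y *ᵥ v y) else 0)) +
      ∑ k ∈ range n, ∑ x0 ∈ iv n T, ∑ y ∈ iv n M3,
        (if AF k (ix k x0) y ∧ lam < N k (ix k x0) y then
          W k x0 y * nsq (Rs Mx o x1 s n sh k x0 (ix k (y - sh)) *ᵥ v y) else 0) := by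
    simp only [mul_sum, ← sum_add_distrib]
    exact sum_le_sum fun k _ => sum_le_sum fun x0 _ => sum_le_sum fun y _ =>
      aff_term (hW0 _ _ _) _ _ _
  linarith

/-- **The glue with the number of `S1`.** -/
theorem aff_num (hs1 : ∀ k a b, |s k a b| ≤ 1) (ho : o = 1 ∨ o = -1) {Q : (ι → ℝ) → ℝ}
    (hX : ∀ a, ∑ i ∈ range n, En Mx n T x1 M3 (i + 1) a ≤ 2 ^ n * Q a)
    {W : ℕ → ℤ → ℤ → ℝ} {e : ℝ} (he : 0 ≤ e) (hW0 : ∀ k x0 y, 0 ≤ W k x0 y)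
    (hW : ∀ k ≤ n, ∀ j y, ∑ x0 ∈ iv k j, W k x0 y ≤ e * 2 ^ k)
    {θ : ℕ → ℤ → ℝ} (hθ0 : ∀ k m, 0 ≤ θ k m)
    (hθ : ∀ k m a, nsq (Mx k m *ᵥ a) ≤ θ k m * nsq a) {Θ : ℝ}
    (hΘ : ∑ i ∈ range n, 2 ^ (i + 1) * ∑ R ∈ wn n T x1 M3, ∑ m ∈ iv (n - (i + 1)) R, θ (i + 1) m ≤
      Θ * 2 ^ n) {v : ℤ → ι → ℝ} {V : ℝ} (hV : ∀ y ∈ iv n M3, nsq (v y) ≤ V) (L : ℕ) (sh : ℤ)
    (AF : ℕ → ℤ → ℤ → Prop) (N : ℕ → ℤ → ℤ → ℕ) (lam : ℕ)
    (hH : ∀ y ∈ iv n M3, ∑ k ∈ range n, ∑ x0 ∈ iv n T,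
      (if AF k (ix k x0) y ∧ N k (ix k x0) y ≤ lam then
        W k x0 y * nsq (Rm Mx o x1 s n k x0 y *ᵥ v y) else 0) ≤
      lam * (e * ∑ i ∈ range n, En Mx n T x1 M3 (i + 1) (v y)))
    {TM : ℝ} (hT : ∑ k ∈ range n, ∑ x0 ∈ iv n T, ∑ y ∈ iv n M3,
      (if AF k (ix k x0) y ∧ lam < N k (ix k x0) y then
        W k x0 y * nsq (Rs Mx o x1 s n sh k x0 (ix k (y - sh)) *ᵥ v y) else 0) ≤ TM) :
    ∑ k ∈ range n, ∑ x0 ∈ iv n T, ∑ y ∈ iv n M3,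
      (if AF k (ix k x0) y then
        W k x0 y * nsq (Rs Mx o x1 s n sh k x0 (ix k (y - sh)) *ᵥ v y) else 0) ≤
      e * ((96 + 32 * (L : ℝ) ^ 3 + 2 * lam) * (2 ^ n * ∑ y ∈ iv n M3, Q (v y)) +
        128 * (((L : ℝ) + 2) ^ 2 + 2) / 2 ^ L * (V * Θ * 4 ^ n)) + TM := by
  refine (aff_line (s := s) hX he hW0 sh AF N lam hH
    (H876.S1 hs1 ho hX he hW0 hW hθ0 hθ hΘ hV L sh) hT).trans (le_of_eq ?_)
  ring

/-- **The glue, summed over `x₁`.** -/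
theorem aff_sum1 (I : Finset ℤ) {Q : ℤ → (ι → ℝ) → ℝ} {s : ℤ → ℕ → ℤ → ℤ → ℝ}
    (hX : ∀ x1 ∈ I, ∀ a, ∑ i ∈ range n, En Mx n T x1 M3 (i + 1) a ≤ 2 ^ n * Q x1 a)
    {W : ℤ → ℕ → ℤ → ℤ → ℝ} {e : ℝ} (he : 0 ≤ e) (hW0 : ∀ x1 k x0 y, 0 ≤ W x1 k x0 y)
    {v : ℤ → ℤ → ι → ℝ} (sh : ℤ) (AF : ℤ → ℕ → ℤ → ℤ → Prop) (N : ℤ → ℕ → ℤ → ℤ → ℕ) (lam : ℕ)
    (hH : ∀ x1 ∈ I, ∀ y ∈ iv n M3, ∑ k ∈ range n, ∑ x0 ∈ iv n T,
      (if AF x1 k (ix k x0) y ∧ N x1 k (ix k x0) y ≤ lam then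
        W x1 k x0 y * nsq (Rm Mx o x1 (s x1) n k x0 y *ᵥ v x1 y) else 0) ≤
      lam * (e * ∑ i ∈ range n, En Mx n T x1 M3 (i + 1) (v x1 y)))
    {DS : ℝ} (hD : ∑ x1 ∈ I, ∑ y ∈ iv n M3, ∑ k ∈ range (n + 1), ∑ x0 ∈ iv n T, W x1 k x0 y *
      nsq ((Rs Mx o x1 (s x1) n sh k x0 (ix k (y - sh)) - Rm Mx o x1 (s x1) n k x0 y) *ᵥ
        v x1 y) ≤ DS)
    {TM : ℝ} (hT : ∑ x1 ∈ I, ∑ k ∈ range n, ∑ x0 ∈ iv n T, ∑ y ∈ iv n M3,
      (if AF x1 k (ix k x0) y ∧ lam < N x1 k (ix k x0) y then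
        W x1 k x0 y * nsq (Rs Mx o x1 (s x1) n sh k x0 (ix k (y - sh)) *ᵥ v x1 y) else 0) ≤ TM) :
    ∑ x1 ∈ I, ∑ k ∈ range n, ∑ x0 ∈ iv n T, ∑ y ∈ iv n M3,
      (if AF x1 k (ix k x0) y then
        W x1 k x0 y * nsq (Rs Mx o x1 (s x1) n sh k x0 (ix k (y - sh)) *ᵥ v x1 y) else 0) ≤
      2 * DS + 2 * (lam * e * (2 ^ n * ∑ x1 ∈ I, ∑ y ∈ iv n M3, Q x1 (v x1 y))) + TM := by
  refine (sum_le_sum fun x1 hx1 => aff_line (s := s x1) (hX x1 hx1) he (hW0 x1) sh (AF x1) (N x1)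
    lam (hH x1 hx1) le_rfl le_rfl).trans ?_
  rw [sum_add_distrib, sum_add_distrib, ← mul_sum, ← mul_sum, ← mul_sum, ← mul_sum]
  linarith

/-- a range of scales above the bottom -/
theorem aff_Ico {n : ℕ} {f : ℕ → ℝ} (hf : ∀ k, 0 ≤ f k) {S : ℝ} (h : ∑ k ∈ range n, f k ≤ S)
    (a : ℕ) : ∑ k ∈ Ico a n, f k ≤ S := by
  refine le_trans (sum_le_sum_of_subset_of_nonneg (fun k hk => ?_) fun k _ _ => hf k) h
  rw [mem_Ico] at hk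
  exact mem_range.2 hk.2

end

end Vale.Agent.P141.H627
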