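import Vale.Agent.P141.H627.AffNum
import Vale.Agent.P141.H871.Aff

/-!
# P141, line (A): the mass of the moving slot on the affected cells, with `stop_num` inside

`H627.AffNum` with the head paid by `H871.stop_num`: the only hypothesis which is left about the
affected cells is the number `TM` of the cells with a count larger than `lam`.
-/

namespace Vale.Agent.P141.H627

open Finset Matrix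
open Vale.Agent.P141.PL (iv ix hs mem_iv)
open Vale.Agent.P141.H43 (avv nsq nsq_nonneg)
open Vale.Agent.P141.H841 (Rm Rs nsq_add_le)
open Vale.Agent.P141.H876 (En wn)
open Vale.Agent.P141.H871 (cnt stop_num)

noncomputable section

open scoped Classical

variable {ι : Type*} [Fintype ι]

variable {Mx : ℕ → ℤ → Matrix ι ι ℝ} {o x1 T M3 : ℤ} {n : ℕ} {s : ℕ → ℤ → ℤ → ℝ}

/-- **One `x₁`, any bound `DS` of the deviations.** -/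
theorem stop_line (hs1 : ∀ k a b, |s k a b| ≤ 1) (ho : o = 1 ∨ o = -1) {Q : (ι → ℝ) → ℝ}
    (hX : ∀ a, ∑ i ∈ range n, En Mx n T x1 M3 (i + 1) a ≤ 2 ^ n * Q a)
    {W : ℕ → ℤ → ℤ → ℝ} {e : ℝ} (he : 0 ≤ e) (hW0 : ∀ k x0 y, 0 ≤ W k x0 y)
    (hW : ∀ k ≤ n, ∀ j y, ∑ x0 ∈ iv k j, W k x0 y ≤ e * 2 ^ k)
    {v : ℤ → ι → ℝ} (sh : ℤ) (AF : ℕ → ℤ → ℤ → Prop) (lam : ℕ)
    {DS : ℝ} (hD : ∑ y ∈ iv n M3, ∑ k ∈ range (n + 1), ∑ x0 ∈ iv n T, W k x0 y *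
      nsq ((Rs Mx o x1 s n sh k x0 (ix k (y - sh)) - Rm Mx o x1 s n k x0 y) *ᵥ v y) ≤ DS)
    {TM : ℝ} (hT : ∑ k ∈ range n, ∑ x0 ∈ iv n T, ∑ y ∈ iv n M3,
      (if AF k (ix k x0) y ∧ lam < cnt (fun l j => AF l j y) n k (ix k x0) then
        W k x0 y * nsq (Rs Mx o x1 s n sh k x0 (ix k (y - sh)) *ᵥ v y) else 0) ≤ TM) :
    ∑ k ∈ range n, ∑ x0 ∈ iv n T, ∑ y ∈ iv n M3,
      (if AF k (ix k x0) y then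
        W k x0 y * nsq (Rs Mx o x1 s n sh k x0 (ix k (y - sh)) *ᵥ v y) else 0) ≤
      2 * DS + 2 * (lam * e * (2 ^ n * ∑ y ∈ iv n M3, Q (v y))) + TM :=
  aff_line (s := s) hX he hW0 sh AF (fun k q y => cnt (fun l j => AF l j y) n k q) lam
    (fun y hy => stop_num hs1 ho (fun k x0 => W k x0 y) (fun k x => hW0 k x y)
      (fun k hk j => hW k hk j y) (fun l j => AF l j y) y (v y) (mem_iv.1 hy) lam) hD hT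

/-- **One `x₁`, the numbers of `H876.S1`.** -/
theorem stop_aff (hs1 : ∀ k a b, |s k a b| ≤ 1) (ho : o = 1 ∨ o = -1) {Q : (ι → ℝ) → ℝ}
    (hX : ∀ a, ∑ i ∈ range n, En Mx n T x1 M3 (i + 1) a ≤ 2 ^ n * Q a)
    {W : ℕ → ℤ → ℤ → ℝ} {e : ℝ} (he : 0 ≤ e) (hW0 : ∀ k x0 y, 0 ≤ W k x0 y)
    (hW : ∀ k ≤ n, ∀ j y, ∑ x0 ∈ iv k j, W k x0 y ≤ e * 2 ^ k)
    {θ : ℕ → ℤ → ℝ} (hθ0 : ∀ k m, 0 ≤ θ k m)
    (hθ : ∀ k m a, nsq (Mx k m *ᵥ a) ≤ θ k m * nsq a) {Θ : ℝ}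
    (hΘ : ∑ i ∈ range n, 2 ^ (i + 1) * ∑ R ∈ wn n T x1 M3, ∑ m ∈ iv (n - (i + 1)) R, θ (i + 1) m ≤
      Θ * 2 ^ n) {v : ℤ → ι → ℝ} {V : ℝ} (hV : ∀ y ∈ iv n M3, nsq (v y) ≤ V) (L : ℕ) (sh : ℤ)
    (AF : ℕ → ℤ → ℤ → Prop) (lam : ℕ)
    {TM : ℝ} (hT : ∑ k ∈ range n, ∑ x0 ∈ iv n T, ∑ y ∈ iv n M3,
      (if AF k (ix k x0) y ∧ lam < cnt (fun l j => AF l j y) n k (ix k x0) then
        W k x0 y * nsq (Rs Mx o x1 s n sh k x0 (ix k (y - sh)) *ᵥ v y) else 0) ≤ TM) :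
    ∑ k ∈ range n, ∑ x0 ∈ iv n T, ∑ y ∈ iv n M3,
      (if AF k (ix k x0) y then
        W k x0 y * nsq (Rs Mx o x1 s n sh k x0 (ix k (y - sh)) *ᵥ v y) else 0) ≤
      e * ((96 + 32 * (L : ℝ) ^ 3 + 2 * lam) * (2 ^ n * ∑ y ∈ iv n M3, Q (v y)) +
        128 * (((L : ℝ) + 2) ^ 2 + 2) / 2 ^ L * (V * Θ * 4 ^ n)) + TM :=
  aff_num hs1 ho hX he hW0 hW hθ0 hθ hΘ hV L sh AF
    (fun k q y => cnt (fun l j => AF l j y) n k q) lam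
    (fun y hy => stop_num hs1 ho (fun k x0 => W k x0 y) (fun k x => hW0 k x y)
      (fun k hk j => hW k hk j y) (fun l j => AF l j y) y (v y) (mem_iv.1 hy) lam) hT

/-- **Summed over `x₁`, any bound `DS` of the deviations.** -/
theorem stop_sum1 (ho : o = 1 ∨ o = -1) (I : Finset ℤ) {Q : ℤ → (ι → ℝ) → ℝ}
    {s : ℤ → ℕ → ℤ → ℤ → ℝ} (hs1 : ∀ x1 k a b, |s x1 k a b| ≤ 1)
    (hX : ∀ x1 ∈ I, ∀ a, ∑ i ∈ range n, En Mx n T x1 M3 (i + 1) a ≤ 2 ^ n * Q x1 a)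
    {W : ℤ → ℕ → ℤ → ℤ → ℝ} {e : ℝ} (he : 0 ≤ e) (hW0 : ∀ x1 k x0 y, 0 ≤ W x1 k x0 y)
    (hW : ∀ x1, ∀ k ≤ n, ∀ j y, ∑ x0 ∈ iv k j, W x1 k x0 y ≤ e * 2 ^ k)
    {v : ℤ → ℤ → ι → ℝ} (sh : ℤ) (AF : ℤ → ℕ → ℤ → ℤ → Prop) (lam : ℕ)
    {DS : ℝ} (hD : ∑ x1 ∈ I, ∑ y ∈ iv n M3, ∑ k ∈ range (n + 1), ∑ x0 ∈ iv n T, W x1 k x0 y *
      nsq ((Rs Mx o x1 (s x1) n sh k x0 (ix k (y - sh)) - Rm Mx o x1 (s x1) n k x0 y) *ᵥ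
        v x1 y) ≤ DS)
    {TM : ℝ} (hT : ∑ x1 ∈ I, ∑ k ∈ range n, ∑ x0 ∈ iv n T, ∑ y ∈ iv n M3,
      (if AF x1 k (ix k x0) y ∧ lam < cnt (fun l j => AF x1 l j y) n k (ix k x0) then
        W x1 k x0 y * nsq (Rs Mx o x1 (s x1) n sh k x0 (ix k (y - sh)) *ᵥ v x1 y) else 0) ≤ TM) :
    ∑ x1 ∈ I, ∑ k ∈ range n, ∑ x0 ∈ iv n T, ∑ y ∈ iv n M3,
      (if AF x1 k (ix k x0) y then
        W x1 k x0 y * nsq (Rs Mx o x1 (s x1) n sh k x0 (ix k (y - sh)) *ᵥ v x1 y) else 0) ≤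
      2 * DS + 2 * (lam * e * (2 ^ n * ∑ x1 ∈ I, ∑ y ∈ iv n M3, Q x1 (v x1 y))) + TM :=
  aff_sum1 I hX he hW0 sh AF (fun x1 k q y => cnt (fun l j => AF x1 l j y) n k q) lam
    (fun x1 _ y hy => stop_num (hs1 x1) ho (fun k x0 => W x1 k x0 y) (fun k x => hW0 x1 k x y)
      (fun k hk j => hW x1 k hk j y) (fun l j => AF x1 l j y) y (v x1 y) (mem_iv.1 hy) lam) hD hT

/-- **Summed over `x₁` in a cell, the numbers of `H876.S1`** (the same `θ`, `V` for every `x₁`). -/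
theorem stop_aff1 (ho : o = 1 ∨ o = -1) (I : Finset ℤ) {Q : ℤ → (ι → ℝ) → ℝ}
    {s : ℤ → ℕ → ℤ → ℤ → ℝ} (hs1 : ∀ x1 k a b, |s x1 k a b| ≤ 1)
    (hX : ∀ x1 ∈ I, ∀ a, ∑ i ∈ range n, En Mx n T x1 M3 (i + 1) a ≤ 2 ^ n * Q x1 a)
    {W : ℤ → ℕ → ℤ → ℤ → ℝ} {e : ℝ} (he : 0 ≤ e) (hW0 : ∀ x1 k x0 y, 0 ≤ W x1 k x0 y)
    (hW : ∀ x1, ∀ k ≤ n, ∀ j y, ∑ x0 ∈ iv k j, W x1 k x0 y ≤ e * 2 ^ k)
    {θ : ℕ → ℤ → ℝ} (hθ0 : ∀ k m, 0 ≤ θ k m)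
    (hθ : ∀ k m a, nsq (Mx k m *ᵥ a) ≤ θ k m * nsq a) {Θ : ℝ}
    (hΘ : ∀ x1 ∈ I, ∑ i ∈ range n, 2 ^ (i + 1) * ∑ R ∈ wn n T x1 M3,
      ∑ m ∈ iv (n - (i + 1)) R, θ (i + 1) m ≤ Θ * 2 ^ n)
    {v : ℤ → ℤ → ι → ℝ} {V : ℝ} (hV : ∀ x1 ∈ I, ∀ y ∈ iv n M3, nsq (v x1 y) ≤ V) (L : ℕ) (sh : ℤ)
    (AF : ℤ → ℕ → ℤ → ℤ → Prop) (lam : ℕ)
    {TM : ℝ} (hT : ∑ x1 ∈ I, ∑ k ∈ range n, ∑ x0 ∈ iv n T, ∑ y ∈ iv n M3,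
      (if AF x1 k (ix k x0) y ∧ lam < cnt (fun l j => AF x1 l j y) n k (ix k x0) then
        W x1 k x0 y * nsq (Rs Mx o x1 (s x1) n sh k x0 (ix k (y - sh)) *ᵥ v x1 y) else 0) ≤ TM) :
    ∑ x1 ∈ I, ∑ k ∈ range n, ∑ x0 ∈ iv n T, ∑ y ∈ iv n M3,
      (if AF x1 k (ix k x0) y then
        W x1 k x0 y * nsq (Rs Mx o x1 (s x1) n sh k x0 (ix k (y - sh)) *ᵥ v x1 y) else 0) ≤
      e * ((96 + 32 * (L : ℝ) ^ 3 + 2 * lam) *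
          (2 ^ n * ∑ x1 ∈ I, ∑ y ∈ iv n M3, Q x1 (v x1 y)) +
        I.card * (128 * (((L : ℝ) + 2) ^ 2 + 2) / 2 ^ L * (V * Θ * 4 ^ n))) + TM := by
  have h := sum_le_sum fun x1 (hx1 : x1 ∈ I) => H876.S1 (hs1 x1) ho (hX x1 hx1) he (hW0 x1)
    (hW x1) hθ0 hθ (hΘ x1 hx1) (hV x1 hx1) L sh
  refine (stop_sum1 ho I hs1 hX he hW0 hW sh AF lam h hT).trans (le_of_eq ?_)
  rw [← mul_sum, sum_add_distrib, sum_const, nsmul_eq_mul, ← mul_sum, ← mul_sum]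
  ring

end

end Vale.Agent.P141.H627
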