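import Vale.Agent.P141.H876.WinS

/-!
# P141, line (A): the deviation of the slot on a shifted grid with the signs kept

Letters of `H841.Lay`.

* `HS` : the square of the Hilbert Schmidt norm;
* `dev_sgn` : `H841.dev_le` with the signed layers on the right side;
* `dev_HS` : the same for the Hilbert Schmidt norm.
-/

namespace Vale.Agent.P141.H627

open Finset Matrix
open Vale.Agent.P141.PL (iv ix hs mem_iv)
open Vale.Agent.P141.H43 (avv nsq nsq_nonneg)
open Vale.Agent.P141.H922 (ck)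
open Vale.Agent.P141.H841 (Lm Rm Rs nsq_add_le nsq_smul nsq_eq nsq_sum_le sum_inv_sq lay_fine
  lay_coarse st st_bd om om_nonneg gl Lm_vec Rm_vec Rs_vec)

noncomputable section

variable {ι : Type*} [Fintype ι]

/-- the square of the Hilbert Schmidt norm -/
def HS (A : Matrix ι ι ℝ) : ℝ := ∑ a, ∑ b, A a b ^ 2

theorem HS_nonneg (A : Matrix ι ι ℝ) : 0 ≤ HS A :=
  sum_nonneg fun _ _ => sum_nonneg fun _ _ => sq_nonneg _

theorem nsq_le_HS (A : Matrix ι ι ℝ) (w : ι → ℝ) : nsq (A *ᵥ w) ≤ HS A * nsq w := by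
  rw [nsq_eq, nsq_eq, HS, sum_mul]
  refine sum_le_sum fun a _ => ?_
  have h := sum_mul_sq_le_sq_mul_sq univ (fun b => A a b) w
  simpa only [mulVec, dotProduct] using h

theorem HS_smul (c : ℝ) (A : Matrix ι ι ℝ) : HS (c • A) = c ^ 2 * HS A := by
  unfold HS
  rw [mul_sum]
  refine sum_congr rfl fun a _ => ?_
  rw [mul_sum]
  refine sum_congr rfl fun b _ => ?_
  rw [Matrix.smul_apply, smul_eq_mul, mul_pow]

theorem HS_basis [DecidableEq ι] (A : Matrix ι ι ℝ) :
    HS A = ∑ b, nsq (A *ᵥ Pi.single b 1) := by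
  unfold HS
  rw [sum_comm]
  refine sum_congr rfl fun b _ => ?_
  rw [nsq_eq]
  refine sum_congr rfl fun a _ => ?_
  rw [mulVec_single_one]
  rfl

theorem HS_add_le (A B : Matrix ι ι ℝ) : HS (A + B) ≤ 2 * HS A + 2 * HS B := by
  unfold HS
  rw [mul_sum, mul_sum, ← sum_add_distrib]
  refine sum_le_sum fun a _ => ?_
  rw [mul_sum, mul_sum, ← sum_add_distrib]
  refine sum_le_sum fun b _ => ?_
  rw [Matrix.add_apply]
  nlinarith [sq_nonneg (A a b - B a b)]

/-- the square of a signed layer at the point `p` -/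
def NL (Mx : ℕ → ℤ → Matrix ι ι ℝ) (o x1 : ℤ) (s : ℕ → ℤ → ℤ → ℝ) (i : ℕ) (x0 p : ℤ)
    (w : ι → ℝ) : ℝ := nsq (Lm Mx o x1 s i x0 p *ᵥ w)

variable {Mx : ℕ → ℤ → Matrix ι ι ℝ} {o x1 : ℤ} {s : ℕ → ℤ → ℤ → ℝ}

theorem nsq_gl_eq (i : ℕ) (x0 p : ℤ) (w : ι → ℝ) :
    nsq (gl Mx o x1 s i x0 w (ix i p)) = NL Mx o x1 s i x0 p w := by
  unfold NL
  rw [Lm_vec, nsq_smul, sq, PL.hs_mul_self, one_mul]

/-- **The deviation of the slot on the shifted grid, one point, with the signs.** -/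
theorem dev_sgn (n : ℕ) (sh : ℤ) {k : ℕ} (hk : k ≤ n) (x0 y : ℤ)
    (w : ι → ℝ) :
    nsq ((Rs Mx o x1 s n sh k x0 (ix k (y - sh)) - Rm Mx o x1 s n k x0 y) *ᵥ w) ≤
      ∑ i ∈ range n, om sh k i y * (NL Mx o x1 s (i + 1) x0 (st sh k y) w +
        NL Mx o x1 s (i + 1) x0 (st sh k y + 2 ^ k) w) := by
  set a := st sh k y with ha
  obtain ⟨hy1, hy2⟩ := st_bd sh k y
  rw [← ha] at hy1 hy2
  set A : ℕ → ι → ℝ := fun i => ((2 : ℝ) ^ k)⁻¹ • ∑ p ∈ Ico a (a + 2 ^ k),
    hs (i + 1) p • gl Mx o x1 s (i + 1) x0 w (ix (i + 1) p) with hA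
  set B : ℕ → ι → ℝ := fun i => hs (i + 1) y • gl Mx o x1 s (i + 1) x0 w (ix (i + 1) y) with hB
  set N : ℕ → ℝ := fun i => NL Mx o x1 s (i + 1) x0 a w + NL Mx o x1 s (i + 1) x0 (a + 2 ^ k) w with hN
  have hN0 : ∀ i, 0 ≤ N i := fun i => add_nonneg (nsq_nonneg _) (nsq_nonneg _)
  have e1 : (Rs Mx o x1 s n sh k x0 (ix k (y - sh)) - Rm Mx o x1 s n k x0 y) *ᵥ w =
      ∑ i ∈ range k, A i + ∑ i ∈ Ico k n, (A i - B i) := by
    rw [sub_mulVec, Rs_vec, Rm_vec, sum_sub_distrib, ← add_sub_assoc]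
    congr 1
    rw [range_eq_Ico, range_eq_Ico, sum_Ico_consecutive _ (Nat.zero_le k) hk]
  rw [e1]
  have f1 : nsq (∑ i ∈ range k, A i) ≤
      2 * ∑ i ∈ range k, ((k - i : ℕ) : ℝ) ^ 2 * (2 * ((4 : ℝ) ^ (k - i))⁻¹ * N i) := by
    refine (nsq_sum_le (range k) (fun i => ((k - i : ℕ) : ℝ)) (fun i hi => ?_) A).trans ?_
    · rw [mem_range] at hi
      have : 0 < k - i := by omega
      exact_mod_cast this
    · have h1 : ∑ i ∈ range k, (((k - i : ℕ) : ℝ))⁻¹ ^ 2 ≤ 2 := by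
        have h2 := sum_inv_sq k
        rw [← sum_range_reflect] at h2
        refine le_trans (le_of_eq (sum_congr rfl fun i hi => ?_)) h2
        rw [mem_range] at hi
        have : ((k - i : ℕ) : ℝ) = ((k - 1 - i : ℕ) : ℝ) + 1 := by
          have : k - i = k - 1 - i + 1 := by omega
          rw [this]; push_cast; ring
        rw [this]
      refine mul_le_mul h1 (sum_le_sum fun i hi => ?_) (sum_nonneg fun i _ =>
        mul_nonneg (by positivity) (nsq_nonneg _)) (by norm_num)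
      rw [mem_range] at hi
      refine mul_le_mul_of_nonneg_left ?_ (by positivity)
      refine (lay_fine hi a _).trans (mul_le_mul_of_nonneg_left ?_ (by positivity))
      exact add_le_add (nsq_gl_eq _ _ _ _).le (nsq_gl_eq _ _ _ _).le
  have f2 : nsq (∑ i ∈ Ico k n, (A i - B i)) ≤
      2 * ∑ i ∈ Ico k n, ((i + 1 - k : ℕ) : ℝ) ^ 2 *
        ((if ix i a = ix i (a + 2 ^ k) then 0 else 2) * N i) := by
    refine (nsq_sum_le (Ico k n) (fun i => ((i + 1 - k : ℕ) : ℝ)) (fun i hi => ?_) _).trans ?_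
    · rw [mem_Ico] at hi
      have : 0 < i + 1 - k := by omega
      exact_mod_cast this
    · have h1 : ∑ i ∈ Ico k n, (((i + 1 - k : ℕ) : ℝ))⁻¹ ^ 2 ≤ 2 := by
        have h2 := sum_inv_sq (n - k)
        rw [sum_Ico_eq_sum_range]
        refine le_trans (le_of_eq (sum_congr rfl fun i _ => ?_)) h2
        have : ((k + i + 1 - k : ℕ) : ℝ) = (i : ℝ) + 1 := by
          have : k + i + 1 - k = i + 1 := by omega
          rw [this]; push_cast; ring
        rw [this]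
      refine mul_le_mul h1 (sum_le_sum fun i hi => ?_) (sum_nonneg fun i _ =>
        mul_nonneg (by positivity) (nsq_nonneg _)) (by norm_num)
      rw [mem_Ico] at hi
      refine mul_le_mul_of_nonneg_left ?_ (by positivity)
      refine (lay_coarse hi.1 hy1 hy2 _).trans (mul_le_mul_of_nonneg_left ?_ ?_)
      · exact add_le_add (nsq_gl_eq _ _ _ _).le (nsq_gl_eq _ _ _ _).le
      · split_ifs <;> norm_num
  refine (nsq_add_le _ _).trans ?_
  have e2 : ∑ i ∈ range n, om sh k i y * N i =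
      ∑ i ∈ range k, om sh k i y * N i + ∑ i ∈ Ico k n, om sh k i y * N i := by
    rw [range_eq_Ico, range_eq_Ico, sum_Ico_consecutive _ (Nat.zero_le k) hk]
  refine le_trans ?_ (le_of_eq e2.symm)
  refine add_le_add ?_ ?_
  · calc 2 * nsq (∑ i ∈ range k, A i) ≤ 2 * (2 * ∑ i ∈ range k, ((k - i : ℕ) : ℝ) ^ 2 *
          (2 * ((4 : ℝ) ^ (k - i))⁻¹ * N i)) := by linarith
      _ = ∑ i ∈ range k, om sh k i y * N i := by
        rw [mul_sum, mul_sum]
        refine sum_congr rfl fun i hi => ?_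
        rw [mem_range] at hi
        unfold om
        rw [if_pos hi]
        ring
  · calc 2 * nsq (∑ i ∈ Ico k n, (A i - B i)) ≤ 2 * (2 * ∑ i ∈ Ico k n,
          ((i + 1 - k : ℕ) : ℝ) ^ 2 * ((if ix i a = ix i (a + 2 ^ k) then 0 else 2) * N i)) := by
            linarith
      _ = ∑ i ∈ Ico k n, om sh k i y * N i := by
        rw [mul_sum, mul_sum]
        refine sum_congr rfl fun i hi => ?_
        have hi' := (mem_Ico.1 hi).1
        unfold om
        rw [if_neg (not_lt.2 hi'), ← ha]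
        by_cases hc : ix i a = ix i (a + 2 ^ k)
        · rw [if_pos hc, if_pos hc]
          ring
        · rw [if_neg hc, if_neg hc]
          ring


/-- **The deviation in the Hilbert Schmidt norm.** -/
theorem dev_HS (n : ℕ) (sh : ℤ) {k : ℕ} (hk : k ≤ n) (x0 y : ℤ) :
    HS (Rs Mx o x1 s n sh k x0 (ix k (y - sh)) - Rm Mx o x1 s n k x0 y) ≤
      ∑ i ∈ range n, om sh k i y * (HS (Lm Mx o x1 s (i + 1) x0 (st sh k y)) +
        HS (Lm Mx o x1 s (i + 1) x0 (st sh k y + 2 ^ k))) := by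
  classical
  rw [HS_basis]
  refine (sum_le_sum fun b _ => dev_sgn (s := s) n sh hk x0 y (Pi.single b 1)).trans (le_of_eq ?_)
  rw [sum_comm]
  refine sum_congr rfl fun i _ => ?_
  rw [← mul_sum, sum_add_distrib]
  unfold NL
  rw [← HS_basis, ← HS_basis]

/-- the square of the norm of a layer depends on the cells only -/
theorem HS_Lm (i : ℕ) (x0 p : ℤ) :
    HS (Lm Mx o x1 s i x0 p) = s i (ix i x0) (ix i p) ^ 2 * HS (Mx i (ck o x1 p i - ix i x0)) := by
  unfold Lm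
  rw [HS_smul, mul_pow, mul_pow, sq (hs i x0), sq (hs i p), PL.hs_mul_self, PL.hs_mul_self,
    one_mul, mul_one]

theorem HS_Lm_cell {i : ℕ} {x0 x0' p p' : ℤ} (h0 : ix i x0 = ix i x0') (hp : ix i p = ix i p') :
    HS (Lm Mx o x1 s i x0 p) = HS (Lm Mx o x1 s i x0' p') := by
  rw [HS_Lm, HS_Lm, h0, hp]
  unfold H922.ck
  rw [hp]

end

end Vale.Agent.P141.H627
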