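import Vale.Agent.P141.H627.DevS

/-!
# P141, line (A): the slot of one generation on a shifted grid, Hilbert Schmidt form

Letters of `H841.Lay` and `H876.ShiftY`.  `f i x0 p` is the square of the norm of the layer `i`, a
function of the cells of the scale `i`.  The sum over `y` uses the small fibres of `v` on the live
scales, so the energy at one point `p` is enough.

* `core` : the sum over `y`, the scales and `x₀`;
* `HS1` : the deviation of the slot on the shifted grid.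
-/

namespace Vale.Agent.P141.H627

open Finset Matrix
open Vale.Agent.P141.PL (iv ix hs mem_iv ix_ix card_iv)
open Vale.Agent.P141.H922 (ck iv_iv)
open Vale.Agent.P141.H43 (avv nsq nsq_nonneg)
open Vale.Agent.P141.H841 (Lm Rm Rs st st_bd om om_nonneg ix_bd ix_of)
open Vale.Agent.P141.H876 (wt_cell near_root)

noncomputable section

open scoped Classical

/-! ### Series -/

theorem ser1 (N : ℕ) : ∑ m ∈ range N, ((m : ℝ) + 1) ^ 2 * ((2 : ℝ) ^ m)⁻¹ ≤ 12 := by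
  have h : ∀ N : ℕ, ∑ m ∈ range N, ((m : ℝ) + 1) ^ 2 * ((2 : ℝ) ^ m)⁻¹ =
      12 - (2 * (N : ℝ) ^ 2 + 8 * N + 12) * ((2 : ℝ) ^ N)⁻¹ := by
    intro N
    induction N with
    | zero => simp
    | succ N ih =>
      have e : ((2 : ℝ) ^ (N + 1))⁻¹ = ((2 : ℝ) ^ N)⁻¹ * (1 / 2) := by
        rw [pow_succ, mul_inv]
        norm_num
      rw [sum_range_succ, ih, e]
      push_cast
      ring
  rw [h N]
  have : 0 ≤ (2 * (N : ℝ) ^ 2 + 8 * N + 12) * ((2 : ℝ) ^ N)⁻¹ := by positivity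
  linarith

theorem ser2 (L N : ℕ) : ∑ m ∈ Ico (L + 1) N, (m : ℝ) ^ 2 * ((2 : ℝ) ^ m)⁻¹ ≤
    (((L : ℝ) + 2) ^ 2 + 2) / 2 ^ L := by
  have h : ∀ N : ℕ, L + 1 ≤ N + 1 → ∑ m ∈ Ico (L + 1) (N + 1), (m : ℝ) ^ 2 * ((2 : ℝ) ^ m)⁻¹ =
      (((L : ℝ) + 2) ^ 2 + 2) / 2 ^ L - (((N : ℝ) + 2) ^ 2 + 2) / 2 ^ N := by
    intro N hN
    induction N with
    | zero =>
      have : L = 0 := by omega
      subst this
      simp
    | succ N ih =>
      rcases Nat.lt_or_ge N L with h1 | h1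
      · have : L = N + 1 := by omega
        subst this
        simp
      · rw [sum_Ico_succ_top (by omega), ih (by omega), pow_succ]
        push_cast
        field_simp
        ring
  rcases Nat.lt_or_ge L N with h1 | h1
  · obtain ⟨m, rfl⟩ : ∃ m, N = m + 1 := ⟨N - 1, by omega⟩
    rw [h m (by omega)]
    have : 0 ≤ (((m : ℝ) + 2) ^ 2 + 2) / 2 ^ m := by positivity
    linarith
  · rw [Ico_eq_empty (by omega), sum_empty]
    positivity

/-! ### Double counting -/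

/-- the cells `iv k m`, `m ∈ J` -/
theorem fib_le {k : ℕ} {u : ℤ → ℝ} (hu : ∀ y, 0 ≤ u y) {c : ℝ}
    (hc : ∀ m, ∑ y ∈ iv k m, u y ≤ c) (Y : Finset ℤ) (P : ℤ → Prop)
    [DecidablePred P] (J : Finset ℤ) (hJ : ∀ y ∈ Y, P y → ix k y ∈ J) :
    ∑ y ∈ Y.filter P, u y ≤ J.card * c := by
  calc ∑ y ∈ Y.filter P, u y ≤ ∑ y ∈ J.biUnion (fun m => iv k m), u y := by
        refine sum_le_sum_of_subset_of_nonneg (fun y hy => ?_) fun y _ _ => hu y
        rw [mem_filter] at hy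
        rw [mem_biUnion]
        exact ⟨ix k y, hJ y hy.1 hy.2, mem_iv.2 rfl⟩
    _ = ∑ m ∈ J, ∑ y ∈ iv k m, u y := by
        rw [sum_biUnion]
        intro a _ b _ hab
        rw [Function.onFun, disjoint_left]
        intro y h1 h2
        exact hab ((mem_iv.1 h1).symm.trans (mem_iv.1 h2))
    _ ≤ ∑ _m ∈ J, c := sum_le_sum fun m _ => hc m
    _ = _ := by rw [sum_const, nsmul_eq_mul]

/-- a sampled function which is constant on the cells of the scale `j` -/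
theorem samp {j : ℕ} {a : ℤ → ℝ} (ha : ∀ p, 0 ≤ a p) (hac : ∀ p q, ix j p = ix j q → a p = a q)
    {u : ℤ → ℝ} (X Y : Finset ℤ) (P : ℤ → Prop) [DecidablePred P]
    (σ : ℤ → ℤ)
    (hX : ∀ y ∈ Y, P y → iv j (ix j (σ y)) ⊆ X) {c : ℝ}
    (hc : ∀ p ∈ X, ∑ y ∈ Y.filter (fun y => P y ∧ ix j (σ y) = ix j p), u y ≤ c) :
    ∑ y ∈ Y.filter P, u y * a (σ y) ≤ ((2 : ℝ) ^ j)⁻¹ * (c * ∑ p ∈ X, a p) := by
  have e1 : ∀ y ∈ Y.filter P, u y * a (σ y) =
      ((2 : ℝ) ^ j)⁻¹ * ∑ p ∈ X, (if ix j p = ix j (σ y) then u y * a p else 0) := by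
    intro y hy
    rw [mem_filter] at hy
    have e2 : ∑ p ∈ X, (if ix j p = ix j (σ y) then u y * a p else 0) =
        ∑ p ∈ iv j (ix j (σ y)), u y * a (σ y) := by
      rw [← sum_filter]
      have e3 : X.filter (fun p => ix j p = ix j (σ y)) = iv j (ix j (σ y)) := by
        ext p
        rw [mem_filter, mem_iv]
        exact ⟨fun h => h.2, fun h => ⟨hX y hy.1 hy.2 (mem_iv.2 h), h⟩⟩
      rw [e3]
      refine sum_congr rfl fun p hp => ?_
      rw [hac p (σ y) (mem_iv.1 hp)]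
    rw [e2, sum_const, card_iv, nsmul_eq_mul]
    push_cast
    have : (2 : ℝ) ^ j ≠ 0 := by positivity
    field_simp
  rw [sum_congr rfl e1, ← mul_sum]
  refine mul_le_mul_of_nonneg_left ?_ (by positivity)
  rw [sum_comm, mul_sum]
  refine sum_le_sum fun p hp => ?_
  calc ∑ y ∈ Y.filter P, (if ix j p = ix j (σ y) then u y * a p else 0) =
        (∑ y ∈ Y.filter (fun y => P y ∧ ix j (σ y) = ix j p), u y) * a p := by
        rw [sum_mul, ← sum_filter, filter_filter]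
        refine sum_congr ?_ fun _ _ => rfl
        ext y
        simp only [mem_filter]
        constructor
        · rintro ⟨h1, h2, h3⟩
          exact ⟨h1, h2, h3.symm⟩
        · rintro ⟨h1, h2, h3⟩
          exact ⟨h1, h2, h3.symm⟩
    _ ≤ c * a p := mul_le_mul_of_nonneg_right (hc p hp) (ha p)

/-! ### The two ends of a shifted cell -/

theorem ix_mono {j : ℕ} {x y : ℤ} (h : x ≤ y) : ix j x ≤ ix j y := by
  unfold ix
  exact Int.ediv_le_ediv (by positivity) h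

theorem ix_add_pow (k : ℕ) (x : ℤ) : ix k (x + 2 ^ k) = ix k x + 1 := by
  unfold ix
  rw [Int.add_ediv_of_dvd_right (dvd_refl _), Int.ediv_self (by positivity)]

/-- fine scale, lower end -/
theorem fine_lo {j k : ℕ} (hjk : j ≤ k) {sh y p : ℤ} (h : ix j (st sh k y) = ix j p) :
    ix k y ∈ Icc (ix k p) (ix k p + 1) := by
  obtain ⟨h1, h2⟩ := st_bd sh k y
  have e : ix k (st sh k y) = ix k p := by
    have := congrArg (ix (k - j)) h
    rwa [ix_ix, ix_ix, Nat.add_sub_cancel' hjk] at this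
  rw [mem_Icc]
  constructor
  · rw [← e]
    exact ix_mono h1
  · rw [← e, ← ix_add_pow]
    exact ix_mono h2.le

/-- fine scale, upper end -/
theorem fine_hi {j k : ℕ} (hjk : j ≤ k) {sh y p : ℤ} (h : ix j (st sh k y + 2 ^ k) = ix j p) :
    ix k y ∈ Icc (ix k p - 1) (ix k p) := by
  obtain ⟨h1, h2⟩ := st_bd sh k y
  have e : ix k (st sh k y + 2 ^ k) = ix k p := by
    have := congrArg (ix (k - j)) h
    rwa [ix_ix, ix_ix, Nat.add_sub_cancel' hjk] at this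
  rw [mem_Icc]
  constructor
  · rw [← e, ix_add_pow]
    have := ix_mono (j := k) h1
    linarith
  · rw [← e]
    exact ix_mono h2.le

/-- coarse scale, lower end -/
theorem coarse_lo {i k : ℕ} (hki : k ≤ i) {sh y p : ℤ}
    (hc : ix i (st sh k y) ≠ ix i (st sh k y + 2 ^ k)) (h : ix i (st sh k y) = ix i p) :
    ix k y ∈ Icc (2 ^ (i - k) * (ix i p + 1) - 1) (2 ^ (i - k) * (ix i p + 1)) := by
  obtain ⟨h1, h2⟩ := st_bd sh k y
  set a := st sh k y with ha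
  have e2 : (2 : ℤ) ^ i = 2 ^ k * 2 ^ (i - k) := by rw [← pow_add, Nat.add_sub_cancel' hki]
  obtain ⟨a1, a2⟩ := ix_bd i a
  have hlt : ix i a < ix i (a + 2 ^ k) := lt_of_le_of_ne (ix_mono (by
    have : (0 : ℤ) < 2 ^ k := by positivity
    linarith)) hc
  have b1 : 2 ^ i * (ix i a + 1) ≤ a + 2 ^ k := by
    refine le_trans (mul_le_mul_of_nonneg_left ?_ (by positivity)) (ix_bd i (a + 2 ^ k)).1
    omega
  rw [h] at a1 a2 b1
  have hp : (0 : ℤ) < 2 ^ k := by positivity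
  obtain ⟨c1, c2⟩ := ix_bd k y
  rw [mem_Icc]
  constructor
  · by_contra hcon
    rw [not_le] at hcon
    have h3 : ix k y + 1 ≤ 2 ^ (i - k) * (ix i p + 1) - 1 := by omega
    have h4 := mul_le_mul_of_nonneg_left h3 hp.le
    have h5 : (2 : ℤ) ^ k * (2 ^ (i - k) * (ix i p + 1) - 1) = 2 ^ i * (ix i p + 1) - 2 ^ k := by
      rw [e2]; ring
    rw [h5] at h4
    nlinarith
  · by_contra hcon
    rw [not_le] at hcon
    have h3 : 2 ^ (i - k) * (ix i p + 1) + 1 ≤ ix k y := by omega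
    have h4 := mul_le_mul_of_nonneg_left h3 hp.le
    have h5 : (2 : ℤ) ^ k * (2 ^ (i - k) * (ix i p + 1) + 1) = 2 ^ i * (ix i p + 1) + 2 ^ k := by
      rw [e2]; ring
    rw [h5] at h4
    have a2' : a < 2 ^ i * (ix i p + 1) := by linarith
    linarith

/-- coarse scale, upper end -/
theorem coarse_hi {i k : ℕ} (hki : k ≤ i) {sh y p : ℤ}
    (hc : ix i (st sh k y) ≠ ix i (st sh k y + 2 ^ k)) (h : ix i (st sh k y + 2 ^ k) = ix i p) :
    ix k y ∈ Icc (2 ^ (i - k) * ix i p - 1) (2 ^ (i - k) * ix i p) := by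
  obtain ⟨h1, h2⟩ := st_bd sh k y
  set a := st sh k y with ha
  have e2 : (2 : ℤ) ^ i = 2 ^ k * 2 ^ (i - k) := by rw [← pow_add, Nat.add_sub_cancel' hki]
  have hlt : ix i a < ix i (a + 2 ^ k) := lt_of_le_of_ne (ix_mono (by
    have : (0 : ℤ) < 2 ^ k := by positivity
    linarith)) hc
  have b1 : 2 ^ i * ix i (a + 2 ^ k) ≤ a + 2 ^ k := (ix_bd i (a + 2 ^ k)).1
  have b2 : a < 2 ^ i * ix i (a + 2 ^ k) := by
    refine lt_of_lt_of_le (ix_bd i a).2 ?_
    have h6 : (2 : ℤ) ^ i * (ix i a + 1) ≤ 2 ^ i * ix i (a + 2 ^ k) :=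
      mul_le_mul_of_nonneg_left (by omega) (by positivity)
    linarith
  rw [h] at b1 b2
  have hp : (0 : ℤ) < 2 ^ k := by positivity
  obtain ⟨c1, c2⟩ := ix_bd k y
  rw [mem_Icc]
  constructor
  · by_contra hcon
    rw [not_le] at hcon
    have h3 : ix k y + 1 ≤ 2 ^ (i - k) * ix i p - 1 := by omega
    have h4 := mul_le_mul_of_nonneg_left h3 hp.le
    have h5 : (2 : ℤ) ^ k * (2 ^ (i - k) * ix i p - 1) = 2 ^ i * ix i p - 2 ^ k := by
      rw [e2]; ring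
    rw [h5] at h4
    nlinarith
  · by_contra hcon
    rw [not_le] at hcon
    have h3 : 2 ^ (i - k) * ix i p + 1 ≤ ix k y := by omega
    have h4 := mul_le_mul_of_nonneg_left h3 hp.le
    have h5 : (2 : ℤ) ^ k * (2 ^ (i - k) * ix i p + 1) = 2 ^ i * ix i p + 2 ^ k := by
      rw [e2]; ring
    rw [h5] at h4
    linarith

/-! ### The sum -/

variable {T M3 : ℤ} {n : ℕ}

/-- a weighted sum over `x₀` of a function of the cells of the scale `i` -/
theorem wt_f {W : ℤ → ℝ} {e : ℝ} {k : ℕ} (hW0 : ∀ x, 0 ≤ W x)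
    (hW : ∀ j, ∑ x ∈ iv k j, W x ≤ e * 2 ^ k) {i : ℕ} (hi : i ≤ n) {g : ℤ → ℝ} (hg0 : ∀ x, 0 ≤ g x)
    (hg : ∀ x x', ix i x = ix i x' → g x = g x') :
    ∑ x0 ∈ iv n T, W x0 * g x0 ≤ e * 2 ^ (k - i) * ∑ x0 ∈ iv n T, g x0 := by
  rw [← iv_iv hi, ← iv_iv hi T g, mul_sum]
  refine sum_le_sum fun j _ => ?_
  have e1 : ∀ x ∈ iv i j, g x = g (2 ^ i * j) := fun x hx => hg _ _ (by
    rw [mem_iv.1 hx]
    unfold ix
    rw [Int.mul_ediv_cancel_left _ (by positivity)])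
  calc ∑ x ∈ iv i j, W x * g x = (∑ x ∈ iv i j, W x) * g (2 ^ i * j) := by
        rw [sum_mul]
        exact sum_congr rfl fun x hx => by rw [e1 x hx]
    _ ≤ (e * 2 ^ (k - i) * 2 ^ i) * g (2 ^ i * j) :=
        mul_le_mul_of_nonneg_right (wt_cell hW0 hW i j) (hg0 _)
    _ = e * 2 ^ (k - i) * ∑ x ∈ iv i j, g x := by
        rw [sum_congr rfl e1, sum_const, card_iv, nsmul_eq_mul]
        push_cast
        ring

/-- the three roots -/
def X3 (n : ℕ) (M3 : ℤ) : Finset ℤ := Ico (2 ^ n * (M3 - 1)) (2 ^ n * (M3 + 2))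

theorem mem_X3 {p : ℤ} : p ∈ X3 n M3 ↔ M3 - 1 ≤ ix n p ∧ ix n p ≤ M3 + 1 := by
  unfold X3
  have h0 : (0 : ℤ) < 2 ^ n := by positivity
  obtain ⟨a1, a2⟩ := ix_bd n p
  rw [mem_Ico]
  constructor
  · rintro ⟨h1, h2⟩
    constructor
    · by_contra h
      have h3 : (2 : ℤ) ^ n * (ix n p + 1) ≤ 2 ^ n * (M3 - 1) :=
        mul_le_mul_of_nonneg_left (by omega) h0.le
      linarith
    · by_contra h
      have h3 : (2 : ℤ) ^ n * (M3 + 2) ≤ 2 ^ n * ix n p :=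
        mul_le_mul_of_nonneg_left (by omega) h0.le
      linarith
  · rintro ⟨h1, h2⟩
    have h3 : (2 : ℤ) ^ n * (M3 - 1) ≤ 2 ^ n * ix n p := mul_le_mul_of_nonneg_left h1 h0.le
    have h4 : (2 : ℤ) ^ n * (ix n p + 1) ≤ 2 ^ n * (M3 + 2) :=
      mul_le_mul_of_nonneg_left (by omega) h0.le
    constructor <;> linarith

theorem card_X3 : ((X3 n M3).card : ℝ) = 3 * 2 ^ n := by
  unfold X3
  rw [Int.card_Ico]
  have e : (2 : ℤ) ^ n * (M3 + 2) - 2 ^ n * (M3 - 1) = ((3 * 2 ^ n : ℕ) : ℤ) := by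
    push_cast
    ring
  rw [e, Int.toNat_natCast]
  push_cast
  ring

theorem st_near {k : ℕ} (hk : k ≤ n) (sh : ℤ) {y : ℤ} (hy : y ∈ iv n M3) {j : ℕ} (hj : j ≤ n) :
    iv j (ix j (st sh k y)) ⊆ X3 n M3 ∧ iv j (ix j (st sh k y + 2 ^ k)) ⊆ X3 n M3 := by
  obtain ⟨t1, t2⟩ := st_bd sh k y
  rw [mem_iv] at hy
  have h0 : (0 : ℤ) < 2 ^ k := by positivity
  have n1 := near_root hk (p := st sh k y) (y := y) (by linarith) (by linarith)
  have n2 := near_root hk (p := st sh k y + 2 ^ k) (y := y) (by linarith) (by linarith)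
  rw [hy] at n1 n2
  have key : ∀ q : ℤ, M3 - 1 ≤ ix n q ∧ ix n q ≤ M3 + 1 → iv j (ix j q) ⊆ X3 n M3 := by
    intro q hq p hp
    rw [mem_iv] at hp
    rw [mem_X3]
    have := congrArg (ix (n - j)) hp
    rw [ix_ix, ix_ix, Nat.add_sub_cancel' hj] at this
    rw [this]
    exact hq
  exact ⟨key _ n1, key _ n2⟩

/-- the live mass -/
def Um (al : ℕ → ℤ → Prop) (n : ℕ) (M3 : ℤ) (m : ℤ → ℝ) (k : ℕ) (y : ℤ) : ℝ :=
  if al k y ∧ ix n y = M3 then m y else 0

section core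

variable {al : ℕ → ℤ → Prop} {m : ℤ → ℝ} {V : ℝ}

theorem Um_nonneg (hm : ∀ y, 0 ≤ m y) (k : ℕ) (y : ℤ) : 0 ≤ Um al n M3 m k y := by
  unfold Um
  split_ifs
  · exact hm y
  · exact le_rfl

theorem Um_cell (hm : ∀ y, 0 ≤ m y) (hV : 0 ≤ V) {k : ℕ} (hk : k ≤ n)
    (fib : ∀ k ≤ n, ∀ y ∈ iv n M3, al k y → ∑ y' ∈ iv k (ix k y), m y' ≤ V * 2 ^ k) (c : ℤ) :
    ∑ y ∈ iv k c, Um al n M3 m k y ≤ V * 2 ^ k := by
  by_cases h : ∃ y ∈ iv k c, al k y ∧ ix n y = M3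
  · obtain ⟨y, hy, h1, h2⟩ := h
    have h3 := fib k hk y (mem_iv.2 h2) h1
    rw [mem_iv.1 hy] at h3
    refine le_trans (sum_le_sum fun y' _ => ?_) h3
    unfold Um
    split_ifs
    · exact le_rfl
    · exact hm y'
  · rw [sum_eq_zero fun y hy => ?_]
    · positivity
    · unfold Um
      rw [if_neg fun h1 => h ⟨y, hy, h1⟩]

theorem Um_root (hm : ∀ y, 0 ≤ m y) (hV : 0 ≤ V) {k : ℕ} (hk : k ≤ n)
    (fib : ∀ k ≤ n, ∀ y ∈ iv n M3, al k y → ∑ y' ∈ iv k (ix k y), m y' ≤ V * 2 ^ k) :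
    ∑ y ∈ iv n M3, Um al n M3 m k y ≤ V * 2 ^ n := by
  rw [← iv_iv hk]
  refine (sum_le_sum fun c _ => Um_cell hm hV hk fib c).trans (le_of_eq ?_)
  rw [sum_const, card_iv, nsmul_eq_mul]
  push_cast
  have e2 : (2 : ℝ) ^ (n - k) * 2 ^ k = 2 ^ n := by rw [← pow_add, Nat.sub_add_cancel hk]
  calc (2 : ℝ) ^ (n - k) * (V * 2 ^ k) = V * (2 ^ (n - k) * 2 ^ k) := by ring
    _ = _ := by rw [e2]

theorem card_two (a : ℤ) : ((Icc (a - 1) a).card : ℝ) = 2 := by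
  rw [Int.card_Icc]
  have : a + 1 - (a - 1) = ((2 : ℕ) : ℤ) := by push_cast; ring
  rw [this, Int.toNat_natCast]
  norm_num

theorem card_two' (a : ℤ) : ((Icc a (a + 1)).card : ℝ) = 2 := by
  rw [Int.card_Icc]
  have : a + 1 + 1 - a = ((2 : ℕ) : ℤ) := by push_cast; ring
  rw [this, Int.toNat_natCast]
  norm_num

/-- fine scales -/
theorem fine_sum (hm : ∀ y, 0 ≤ m y) (hV : 0 ≤ V)
    (fib : ∀ k ≤ n, ∀ y ∈ iv n M3, al k y → ∑ y' ∈ iv k (ix k y), m y' ≤ V * 2 ^ k)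
    {i k : ℕ} (hik : i < k) (hk : k ≤ n) (sh : ℤ) {a : ℤ → ℝ} (ha : ∀ p, 0 ≤ a p)
    (hac : ∀ p q, ix (i + 1) p = ix (i + 1) q → a p = a q) :
    ∑ y ∈ iv n M3, Um al n M3 m k y * (om sh k i y * (a (st sh k y) + a (st sh k y + 2 ^ k))) ≤
      32 * V * ((k - i : ℕ) : ℝ) ^ 2 * ((4 : ℝ) ^ (k - i))⁻¹ * 2 ^ (k - (i + 1)) *
        ∑ p ∈ X3 n M3, a p := by
  have hj : i + 1 ≤ n := by omega
  have hu := fun y => Um_nonneg (al := al) (n := n) (M3 := M3) hm k y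
  have hcell := fun c => Um_cell (V := V) hm hV hk fib c
  have s1 := samp ha hac (u := Um al n M3 m k) (X3 n M3) (iv n M3) (fun _ => True)
    (fun y => st sh k y) (fun y hy _ => (st_near hk sh hy hj).1) (c := 2 * (V * 2 ^ k)) (by
      intro p _
      refine (fib_le hu hcell (iv n M3) (fun y => True ∧ ix (i + 1) (st sh k y) = ix (i + 1) p)
        (Icc (ix k p) (ix k p + 1)) ?_).trans
        (le_of_eq (by rw [card_two']))
      rintro y _ ⟨_, h⟩
      exact fine_lo hik h)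
  have s2 := samp ha hac (u := Um al n M3 m k) (X3 n M3) (iv n M3) (fun _ => True)
    (fun y => st sh k y + 2 ^ k) (fun y hy _ => (st_near hk sh hy hj).2)
    (c := 2 * (V * 2 ^ k)) (by
      intro p _
      refine (fib_le hu hcell (iv n M3)
        (fun y => True ∧ ix (i + 1) (st sh k y + 2 ^ k) = ix (i + 1) p)
        (Icc (ix k p - 1) (ix k p)) ?_).trans
        (le_of_eq (by rw [card_two]))
      rintro y _ ⟨_, h⟩
      exact fine_hi hik h)
  rw [filter_true] at s1 s2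
  have e1 : ∑ y ∈ iv n M3, Um al n M3 m k y *
      (om sh k i y * (a (st sh k y) + a (st sh k y + 2 ^ k))) =
      8 * ((k - i : ℕ) : ℝ) ^ 2 * ((4 : ℝ) ^ (k - i))⁻¹ *
        (∑ y ∈ iv n M3, Um al n M3 m k y * a (st sh k y) +
          ∑ y ∈ iv n M3, Um al n M3 m k y * a (st sh k y + 2 ^ k)) := by
    rw [← sum_add_distrib, mul_sum]
    refine sum_congr rfl fun y _ => ?_
    unfold om
    rw [if_pos hik]
    ring
  rw [e1]
  have e2 : ((2 : ℝ) ^ (i + 1))⁻¹ * (2 * (V * 2 ^ k) * ∑ p ∈ X3 n M3, a p) =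
      2 * V * 2 ^ (k - (i + 1)) * ∑ p ∈ X3 n M3, a p := by
    have e3 : (2 : ℝ) ^ k = 2 ^ (k - (i + 1)) * 2 ^ (i + 1) := by
      rw [← pow_add, Nat.sub_add_cancel (by omega : i + 1 ≤ k)]
    rw [e3]
    have : (2 : ℝ) ^ (i + 1) ≠ 0 := by positivity
    field_simp
  rw [e2] at s1 s2
  refine (mul_le_mul_of_nonneg_left (add_le_add s1 s2)
    (show (0 : ℝ) ≤ 8 * ((k - i : ℕ) : ℝ) ^ 2 * ((4 : ℝ) ^ (k - i))⁻¹ by positivity)).trans
    (le_of_eq ?_)
  ring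

/-- coarse scales -/
theorem coarse_sum (hm : ∀ y, 0 ≤ m y) (hV : 0 ≤ V)
    (fib : ∀ k ≤ n, ∀ y ∈ iv n M3, al k y → ∑ y' ∈ iv k (ix k y), m y' ≤ V * 2 ^ k)
    {i k : ℕ} (hki : k ≤ i) (hi : i < n) (sh : ℤ) {a : ℤ → ℝ} (ha : ∀ p, 0 ≤ a p)
    (hac : ∀ p q, ix (i + 1) p = ix (i + 1) q → a p = a q) :
    ∑ y ∈ iv n M3, Um al n M3 m k y * (om sh k i y * (a (st sh k y) + a (st sh k y + 2 ^ k))) ≤
      32 * V * ((i + 1 - k : ℕ) : ℝ) ^ 2 * ((2 : ℝ) ^ (i - k))⁻¹ * ∑ p ∈ X3 n M3, a p := by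
  have hk : k ≤ n := by omega
  have hu := fun y => Um_nonneg (al := al) (n := n) (M3 := M3) hm k y
  have hcell := fun c => Um_cell (V := V) hm hV hk fib c
  have hac' : ∀ p q, ix i p = ix i q → a p = a q := fun p q h => hac p q (by
    have := congrArg (ix 1) h
    rwa [ix_ix, ix_ix] at this)
  set P : ℤ → Prop := fun y => ix i (st sh k y) ≠ ix i (st sh k y + 2 ^ k) with hP
  have s1 := samp ha hac' (u := Um al n M3 m k) (X3 n M3) (iv n M3) P
    (fun y => st sh k y) (fun y hy _ => (st_near hk sh hy hi.le).1) (c := 2 * (V * 2 ^ k)) (by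
      intro p _
      refine (fib_le hu hcell (iv n M3) (fun y => P y ∧ ix i (st sh k y) = ix i p)
        (Icc (2 ^ (i - k) * (ix i p + 1) - 1) (2 ^ (i - k) * (ix i p + 1))) ?_).trans
        (le_of_eq (by rw [card_two]))
      rintro y _ ⟨h1, h⟩
      exact coarse_lo hki h1 h)
  have s2 := samp ha hac' (u := Um al n M3 m k) (X3 n M3) (iv n M3) P
    (fun y => st sh k y + 2 ^ k) (fun y hy _ => (st_near hk sh hy hi.le).2)
    (c := 2 * (V * 2 ^ k)) (by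
      intro p _
      refine (fib_le hu hcell (iv n M3) (fun y => P y ∧ ix i (st sh k y + 2 ^ k) = ix i p)
        (Icc (2 ^ (i - k) * ix i p - 1) (2 ^ (i - k) * ix i p)) ?_).trans
        (le_of_eq (by rw [card_two]))
      rintro y _ ⟨h1, h⟩
      exact coarse_hi hki h1 h)
  have e1 : ∑ y ∈ iv n M3, Um al n M3 m k y *
      (om sh k i y * (a (st sh k y) + a (st sh k y + 2 ^ k))) =
      8 * ((i + 1 - k : ℕ) : ℝ) ^ 2 *
        (∑ y ∈ (iv n M3).filter P, Um al n M3 m k y * a (st sh k y) +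
          ∑ y ∈ (iv n M3).filter P, Um al n M3 m k y * a (st sh k y + 2 ^ k)) := by
    rw [← sum_add_distrib, mul_sum, sum_filter]
    refine sum_congr rfl fun y _ => ?_
    unfold om
    rw [if_neg (not_lt.2 hki)]
    by_cases hc : ix i (st sh k y) = ix i (st sh k y + 2 ^ k)
    · rw [if_pos hc, if_neg (fun h : P y => h hc)]
      ring
    · rw [if_neg hc, if_pos (show P y from hc)]
      ring
  rw [e1]
  have e2 : ((2 : ℝ) ^ i)⁻¹ * (2 * (V * 2 ^ k) * ∑ p ∈ X3 n M3, a p) =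
      2 * V * ((2 : ℝ) ^ (i - k))⁻¹ * ∑ p ∈ X3 n M3, a p := by
    have e3 : (2 : ℝ) ^ i = 2 ^ (i - k) * 2 ^ k := by
      rw [← pow_add, Nat.sub_add_cancel hki]
    rw [e3]
    have : (2 : ℝ) ^ k ≠ 0 := by positivity
    field_simp
  rw [e2] at s1 s2
  refine (mul_le_mul_of_nonneg_left (add_le_add s1 s2)
    (show (0 : ℝ) ≤ 8 * ((i + 1 - k : ℕ) : ℝ) ^ 2 by positivity)).trans (le_of_eq ?_)
  ring

/-- one scale `k`, all the layers above -/
theorem ser_coarse (i : ℕ) :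
    ∑ k ∈ range (i + 1), ((i + 1 - k : ℕ) : ℝ) ^ 2 * ((2 : ℝ) ^ (i - k))⁻¹ ≤ 12 := by
  refine le_trans (le_of_eq ?_) (ser1 (i + 1))
  rw [← sum_range_reflect]
  refine sum_congr rfl fun k hk => ?_
  rw [mem_range] at hk
  have e1 : i + 1 - (i + 1 - 1 - k) = k + 1 := by omega
  have e2 : i - (i + 1 - 1 - k) = k := by omega
  rw [e1, e2]
  push_cast
  ring

theorem ser_near (i N L : ℕ) :
    ∑ k ∈ Ico (i + 1) N, (if k - i ≤ L then ((k - i : ℕ) : ℝ) ^ 2 else 0) ≤ (L : ℝ) ^ 3 := by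
  rw [← sum_filter]
  calc ∑ k ∈ (Ico (i + 1) N).filter (fun k => k - i ≤ L), ((k - i : ℕ) : ℝ) ^ 2 ≤
        ∑ k ∈ (Ico (i + 1) N).filter (fun k => k - i ≤ L), (L : ℝ) ^ 2 := by
        refine sum_le_sum fun k hk => ?_
        rw [mem_filter] at hk
        exact pow_le_pow_left₀ (Nat.cast_nonneg _) (by exact_mod_cast hk.2) 2
    _ ≤ ∑ _k ∈ Ico (i + 1) (i + 1 + L), (L : ℝ) ^ 2 := by
        refine sum_le_sum_of_subset_of_nonneg (fun k hk => ?_) fun _ _ _ => by positivity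
        rw [mem_filter, mem_Ico] at hk
        rw [mem_Ico]
        omega
    _ = (L : ℝ) ^ 3 := by
        rw [sum_const, Nat.card_Ico, nsmul_eq_mul, Nat.add_sub_cancel_left]
        ring

theorem ser_far (i N L : ℕ) :
    ∑ k ∈ Ico (i + 1) N, (if k - i ≤ L then 0 else
      ((k - i : ℕ) : ℝ) ^ 2 * ((2 : ℝ) ^ (k - i))⁻¹) ≤ (((L : ℝ) + 2) ^ 2 + 2) / 2 ^ L := by
  have e0 : ∀ k ∈ Ico (i + 1) N, (if k - i ≤ L then 0 else
      ((k - i : ℕ) : ℝ) ^ 2 * ((2 : ℝ) ^ (k - i))⁻¹) = if ¬ (k - i ≤ L) then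
      ((k - i : ℕ) : ℝ) ^ 2 * ((2 : ℝ) ^ (k - i))⁻¹ else 0 := by
    intro k _
    by_cases h : k - i ≤ L
    · rw [if_pos h, if_neg (not_not.2 h)]
    · rw [if_neg h, if_pos h]
  rw [sum_congr rfl e0, ← sum_filter]
  refine le_trans ?_ (ser2 L (N - i))
  have e1 := Finset.sum_Ico_add' (fun k : ℕ => ((k - i : ℕ) : ℝ) ^ 2 * ((2 : ℝ) ^ (k - i))⁻¹)
    (L + 1) (N - i) i
  simp only [Nat.add_sub_cancel] at e1
  rw [e1]
  refine sum_le_sum_of_subset_of_nonneg (fun k hk => ?_) fun _ _ _ => by positivity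
  rw [mem_filter, mem_Ico] at hk
  rw [mem_Ico]
  omega

/-- **The sum over `y`, the scales and `x₀`.** -/
theorem core {f : ℕ → ℤ → ℤ → ℝ} (hf0 : ∀ i x p, 0 ≤ f i x p)
    (hfc : ∀ i x x' p p', ix i x = ix i x' → ix i p = ix i p' → f i x p = f i x' p')
    {E : ℝ} (hE : ∀ p, M3 - 1 ≤ ix n p → ix n p ≤ M3 + 1 →
      ∑ i ∈ range n, ∑ x0 ∈ iv n T, f (i + 1) x0 p ≤ 2 ^ n * E)
    {b : ℕ → ℝ} (hU : ∀ i < n, ∀ p, M3 - 1 ≤ ix n p → ix n p ≤ M3 + 1 →
      ∑ x0 ∈ iv n T, f (i + 1) x0 p ≤ b i)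
    {Θ : ℝ} (hΘ : ∑ i ∈ range n, b i ≤ Θ * 2 ^ n)
    {W : ℕ → ℤ → ℤ → ℝ} {e : ℝ} (he : 0 ≤ e) (hW0 : ∀ k x0 y, 0 ≤ W k x0 y)
    (hW : ∀ k ≤ n, ∀ j y, ∑ x0 ∈ iv k j, W k x0 y ≤ e * 2 ^ k)
    (hWal : ∀ k x0 y, ¬ al k y → W k x0 y = 0) (hm : ∀ y, 0 ≤ m y) (hV : 0 ≤ V)
    (fib : ∀ k ≤ n, ∀ y ∈ iv n M3, al k y → ∑ y' ∈ iv k (ix k y), m y' ≤ V * 2 ^ k)
    (L : ℕ) (sh : ℤ) {D : ℕ → ℤ → ℤ → ℝ}
    (hD : ∀ k ≤ n, ∀ x0 y, D k x0 y ≤ ∑ i ∈ range n, om sh k i y *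
      (f (i + 1) x0 (st sh k y) + f (i + 1) x0 (st sh k y + 2 ^ k))) :
    ∑ y ∈ iv n M3, ∑ k ∈ range (n + 1), ∑ x0 ∈ iv n T, W k x0 y * (D k x0 y * m y) ≤
      e * V * 4 ^ n * ((1152 + 24 * (L : ℝ) ^ 3) * E +
        8 * ((((L : ℝ) + 2) ^ 2 + 2) / 2 ^ L) * Θ) := by
  set a : ℕ → ℤ → ℝ := fun i p => ∑ x0 ∈ iv n T, f (i + 1) x0 p with ha
  have ha0 : ∀ i p, 0 ≤ a i p := fun i p => sum_nonneg fun x _ => hf0 _ _ _
  have hac : ∀ i p q, ix (i + 1) p = ix (i + 1) q → a i p = a i q := fun i p q h =>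
    sum_congr rfl fun x _ => hfc _ _ _ _ _ rfl h
  set A : ℕ → ℝ := fun i => ∑ p ∈ X3 n M3, a i p with hA
  have hA0 : ∀ i, 0 ≤ A i := fun i => sum_nonneg fun p _ => ha0 i p
  -- one point and one scale
  have step1 : ∀ y ∈ iv n M3, ∀ k ∈ range (n + 1),
      ∑ x0 ∈ iv n T, W k x0 y * (D k x0 y * m y) ≤
      ∑ i ∈ range n, e * 2 ^ (k - (i + 1)) * (Um al n M3 m k y *
        (om sh k i y * (a i (st sh k y) + a i (st sh k y + 2 ^ k)))) := by
    intro y hy k hk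
    rw [mem_range] at hk
    have hk' : k ≤ n := by omega
    by_cases hal : al k y
    · have hUm : Um al n M3 m k y = m y := by
        unfold Um
        rw [if_pos ⟨hal, mem_iv.1 hy⟩]
      rw [hUm]
      calc ∑ x0 ∈ iv n T, W k x0 y * (D k x0 y * m y) ≤ ∑ x0 ∈ iv n T, ∑ i ∈ range n,
            m y * (om sh k i y * (W k x0 y * f (i + 1) x0 (st sh k y) +
              W k x0 y * f (i + 1) x0 (st sh k y + 2 ^ k))) := by
            refine sum_le_sum fun x0 _ => ?_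
            refine (mul_le_mul_of_nonneg_left (mul_le_mul_of_nonneg_right (hD k hk' x0 y)
              (hm y)) (hW0 k x0 y)).trans (le_of_eq ?_)
            rw [sum_mul, mul_sum]
            exact sum_congr rfl fun i _ => by ring
        _ = ∑ i ∈ range n, m y * (om sh k i y *
              (∑ x0 ∈ iv n T, W k x0 y * f (i + 1) x0 (st sh k y) +
                ∑ x0 ∈ iv n T, W k x0 y * f (i + 1) x0 (st sh k y + 2 ^ k))) := by
            rw [sum_comm]
            refine sum_congr rfl fun i _ => ?_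
            rw [← sum_add_distrib, mul_sum, mul_sum]
        _ ≤ _ := by
            refine sum_le_sum fun i hi => ?_
            rw [mem_range] at hi
            have w1 := wt_f (T := T) (n := n) (fun x => hW0 k x y) (fun j => hW k hk' j y)
              (i := i + 1) (by omega) (g := fun x0 => f (i + 1) x0 (st sh k y))
              (fun x => hf0 _ _ _) (fun x x' h => hfc _ _ _ _ _ h rfl)
            have w2 := wt_f (T := T) (n := n) (fun x => hW0 k x y) (fun j => hW k hk' j y)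
              (i := i + 1) (by omega) (g := fun x0 => f (i + 1) x0 (st sh k y + 2 ^ k))
              (fun x => hf0 _ _ _) (fun x x' h => hfc _ _ _ _ _ h rfl)
            refine (mul_le_mul_of_nonneg_left (mul_le_mul_of_nonneg_left (add_le_add w1 w2)
              (om_nonneg sh k i y)) (hm y)).trans (le_of_eq ?_)
            simp only [ha]
            ring
    · rw [sum_eq_zero fun x0 _ => by rw [hWal k x0 y hal, zero_mul]]
      refine sum_nonneg fun i _ => mul_nonneg (by positivity) (mul_nonneg (Um_nonneg hm k y)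
        (mul_nonneg (om_nonneg _ _ _ _) (add_nonneg (ha0 _ _) (ha0 _ _))))
  -- one layer and one scale
  have hb0 : ∀ i < n, 0 ≤ b i := by
    intro i hi
    refine le_trans (ha0 i (2 ^ n * M3)) (hU i hi _ ?_ ?_) <;>
    · unfold ix
      rw [Int.mul_ediv_cancel_left _ (by positivity)]
      omega
  set G : ℝ := (((L : ℝ) + 2) ^ 2 + 2) / 2 ^ L with hG
  have stepC : ∀ i < n, ∀ k ≤ i, e * 2 ^ (k - (i + 1)) * ∑ y ∈ iv n M3, Um al n M3 m k y *
      (om sh k i y * (a i (st sh k y) + a i (st sh k y + 2 ^ k))) ≤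
      32 * e * V * A i * (((i + 1 - k : ℕ) : ℝ) ^ 2 * ((2 : ℝ) ^ (i - k))⁻¹) := by
    intro i hi k hk
    have h1 := coarse_sum (V := V) hm hV fib hk hi sh (ha0 i) (hac i)
    have e1 : k - (i + 1) = 0 := by omega
    rw [e1, pow_zero, mul_one]
    refine (mul_le_mul_of_nonneg_left h1 he).trans (le_of_eq ?_)
    simp only [hA]
    ring
  have stepF : ∀ i < n, ∀ k ≤ n, i < k → e * 2 ^ (k - (i + 1)) * ∑ y ∈ iv n M3,
      Um al n M3 m k y * (om sh k i y * (a i (st sh k y) + a i (st sh k y + 2 ^ k))) ≤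
      8 * e * V * A i * ((k - i : ℕ) : ℝ) ^ 2 := by
    intro i hi k hk hik
    have h1 := fine_sum (V := V) hm hV fib hik hk sh (ha0 i) (hac i)
    refine (mul_le_mul_of_nonneg_left h1 (by positivity)).trans (le_of_eq ?_)
    have e1 : (4 : ℝ) ^ (k - i) = 4 * (2 ^ (k - (i + 1)) * 2 ^ (k - (i + 1))) := by
      have : k - i = (k - (i + 1)) + 1 := by omega
      have h22 : (2 : ℝ) * 2 = 4 := by norm_num
      rw [this, ← mul_pow, pow_succ, h22]
      ring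
    rw [e1]
    have : (2 : ℝ) ^ (k - (i + 1)) ≠ 0 := by positivity
    simp only [hA]
    field_simp
    ring
  have stepU : ∀ i < n, ∀ k ≤ n, i < k → e * 2 ^ (k - (i + 1)) * ∑ y ∈ iv n M3,
      Um al n M3 m k y * (om sh k i y * (a i (st sh k y) + a i (st sh k y + 2 ^ k))) ≤
      8 * e * V * 2 ^ n * b i * (((k - i : ℕ) : ℝ) ^ 2 * ((2 : ℝ) ^ (k - i))⁻¹) := by
    intro i hi k hk hik
    have h1 : ∑ y ∈ iv n M3, Um al n M3 m k y *
        (om sh k i y * (a i (st sh k y) + a i (st sh k y + 2 ^ k))) ≤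
        (8 * ((k - i : ℕ) : ℝ) ^ 2 * ((4 : ℝ) ^ (k - i))⁻¹ * (2 * b i)) * (V * 2 ^ n) := by
      calc _ ≤ ∑ y ∈ iv n M3, Um al n M3 m k y *
            (8 * ((k - i : ℕ) : ℝ) ^ 2 * ((4 : ℝ) ^ (k - i))⁻¹ * (2 * b i)) := by
            refine sum_le_sum fun y hy => ?_
            refine mul_le_mul_of_nonneg_left ?_ (Um_nonneg hm k y)
            unfold om
            rw [if_pos hik]
            refine mul_le_mul_of_nonneg_left ?_ (by positivity)
            have n1 := st_near hk sh hy (j := 0) (by omega)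
            have m1 := mem_X3.1 (n1.1 (mem_iv.2 rfl))
            have m2 := mem_X3.1 (n1.2 (mem_iv.2 rfl))
            have u1 := hU i hi _ m1.1 m1.2
            have u2 := hU i hi _ m2.1 m2.2
            simp only [ha]
            linarith
        _ = (8 * ((k - i : ℕ) : ℝ) ^ 2 * ((4 : ℝ) ^ (k - i))⁻¹ * (2 * b i)) *
              ∑ y ∈ iv n M3, Um al n M3 m k y := by
            rw [mul_sum]
            exact sum_congr rfl fun _ _ => mul_comm _ _
        _ ≤ _ := mul_le_mul_of_nonneg_left (Um_root hm hV hk fib)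
            (mul_nonneg (by positivity) (by have := hb0 i hi; linarith))
    refine (mul_le_mul_of_nonneg_left h1 (by positivity)).trans (le_of_eq ?_)
    have e1 : (4 : ℝ) ^ (k - i) = 2 ^ (k - i) * (2 * 2 ^ (k - (i + 1))) := by
      have : k - i = (k - (i + 1)) + 1 := by omega
      have e2 : (4 : ℝ) ^ (k - i) = 2 ^ (k - i) * 2 ^ (k - i) := by
        rw [← mul_pow]
        norm_num
      rw [e2]
      congr 1
      rw [this, pow_succ]
      ring
    rw [e1]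
    have : (2 : ℝ) ^ (k - (i + 1)) ≠ 0 := by positivity
    have : (2 : ℝ) ^ (k - i) ≠ 0 := by positivity
    field_simp
  -- the sum over the scales, one layer
  have layer : ∀ i ∈ range n, ∑ k ∈ range (n + 1), e * 2 ^ (k - (i + 1)) *
      ∑ y ∈ iv n M3, Um al n M3 m k y *
        (om sh k i y * (a i (st sh k y) + a i (st sh k y + 2 ^ k))) ≤
      e * V * (384 + 8 * (L : ℝ) ^ 3) * A i + 8 * e * V * 2 ^ n * G * b i := by
    intro i hi
    rw [mem_range] at hi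
    rw [range_eq_Ico, ← sum_Ico_consecutive _ (Nat.zero_le (i + 1)) (by omega : i + 1 ≤ n + 1),
      ← range_eq_Ico]
    have c1 : ∑ k ∈ range (i + 1), e * 2 ^ (k - (i + 1)) *
        ∑ y ∈ iv n M3, Um al n M3 m k y *
          (om sh k i y * (a i (st sh k y) + a i (st sh k y + 2 ^ k))) ≤
        384 * e * V * A i := by
      refine (sum_le_sum fun k hk => stepC i hi k (by rw [mem_range] at hk; omega)).trans ?_
      rw [← mul_sum]
      have hAi := hA0 i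
      refine (mul_le_mul_of_nonneg_left (ser_coarse i) (by positivity)).trans (le_of_eq ?_)
      ring
    have c2 : ∑ k ∈ Ico (i + 1) (n + 1), e * 2 ^ (k - (i + 1)) *
        ∑ y ∈ iv n M3, Um al n M3 m k y *
          (om sh k i y * (a i (st sh k y) + a i (st sh k y + 2 ^ k))) ≤
        8 * e * V * A i * (L : ℝ) ^ 3 + 8 * e * V * 2 ^ n * b i * G := by
      calc _ ≤ ∑ k ∈ Ico (i + 1) (n + 1), (8 * e * V * A i *
            (if k - i ≤ L then ((k - i : ℕ) : ℝ) ^ 2 else 0) + 8 * e * V * 2 ^ n * b i *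
            (if k - i ≤ L then 0 else ((k - i : ℕ) : ℝ) ^ 2 * ((2 : ℝ) ^ (k - i))⁻¹)) := by
            refine sum_le_sum fun k hk => ?_
            rw [mem_Ico] at hk
            by_cases h : k - i ≤ L
            · rw [if_pos h, if_pos h, mul_zero, add_zero]
              exact stepF i hi k (by omega) (by omega)
            · rw [if_neg h, if_neg h, mul_zero, zero_add]
              exact stepU i hi k (by omega) (by omega)
        _ ≤ _ := by
            rw [sum_add_distrib, ← mul_sum, ← mul_sum]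
            have hAi := hA0 i
            have hbi := hb0 i hi
            exact add_le_add (mul_le_mul_of_nonneg_left (ser_near i (n + 1) L) (by positivity))
              (mul_le_mul_of_nonneg_left (ser_far i (n + 1) L) (by positivity))
    refine (add_le_add c1 c2).trans (le_of_eq ?_)
    ring
  -- the energies
  have hAs : ∑ i ∈ range n, A i ≤ 3 * 4 ^ n * E := by
    calc ∑ i ∈ range n, A i = ∑ p ∈ X3 n M3, ∑ i ∈ range n, ∑ x0 ∈ iv n T, f (i + 1) x0 p := by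
          simp only [hA, ha]
          rw [sum_comm]
      _ ≤ ∑ _p ∈ X3 n M3, 2 ^ n * E := sum_le_sum fun p hp => by
          rw [mem_X3] at hp
          exact hE p hp.1 hp.2
      _ = 3 * 4 ^ n * E := by
          rw [sum_const, nsmul_eq_mul, card_X3]
          have : (4 : ℝ) ^ n = 2 ^ n * 2 ^ n := by rw [← mul_pow]; norm_num
          rw [this]
          ring
  calc ∑ y ∈ iv n M3, ∑ k ∈ range (n + 1), ∑ x0 ∈ iv n T, W k x0 y * (D k x0 y * m y)
      ≤ ∑ y ∈ iv n M3, ∑ k ∈ range (n + 1), ∑ i ∈ range n, e * 2 ^ (k - (i + 1)) *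
          (Um al n M3 m k y * (om sh k i y * (a i (st sh k y) + a i (st sh k y + 2 ^ k)))) :=
        sum_le_sum fun y hy => sum_le_sum fun k hk => step1 y hy k hk
    _ = ∑ i ∈ range n, ∑ k ∈ range (n + 1), e * 2 ^ (k - (i + 1)) *
          ∑ y ∈ iv n M3, Um al n M3 m k y *
            (om sh k i y * (a i (st sh k y) + a i (st sh k y + 2 ^ k))) := by
        rw [sum_comm]
        have e1 : ∀ k ∈ range (n + 1), ∑ y ∈ iv n M3, ∑ i ∈ range n, e * 2 ^ (k - (i + 1)) *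
            (Um al n M3 m k y * (om sh k i y * (a i (st sh k y) + a i (st sh k y + 2 ^ k)))) =
            ∑ i ∈ range n, e * 2 ^ (k - (i + 1)) * ∑ y ∈ iv n M3, Um al n M3 m k y *
              (om sh k i y * (a i (st sh k y) + a i (st sh k y + 2 ^ k))) := by
          intro k _
          rw [sum_comm]
          exact sum_congr rfl fun i _ => (mul_sum _ _ _).symm
        rw [sum_congr rfl e1, sum_comm]
    _ ≤ ∑ i ∈ range n, (e * V * (384 + 8 * (L : ℝ) ^ 3) * A i +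
          8 * e * V * 2 ^ n * G * b i) := sum_le_sum layer
    _ = e * V * (384 + 8 * (L : ℝ) ^ 3) * ∑ i ∈ range n, A i +
          8 * e * V * 2 ^ n * G * ∑ i ∈ range n, b i := by
        rw [sum_add_distrib, ← mul_sum, ← mul_sum]
    _ ≤ e * V * (384 + 8 * (L : ℝ) ^ 3) * (3 * 4 ^ n * E) +
          8 * e * V * 2 ^ n * G * (Θ * 2 ^ n) :=
        add_le_add (mul_le_mul_of_nonneg_left hAs (by positivity))
          (mul_le_mul_of_nonneg_left hΘ (by positivity))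
    _ = _ := by
        have : (4 : ℝ) ^ n = 2 ^ n * 2 ^ n := by rw [← mul_pow]; norm_num
        rw [this]
        ring

end core

/-! ### The slot -/

section slot

variable {ι : Type*} [Fintype ι] {Mx : ℕ → ℤ → Matrix ι ι ℝ} {o x1 : ℤ} {s : ℕ → ℤ → ℤ → ℝ}
  {al : ℕ → ℤ → Prop}

/-- **The deviation of the slot on the shifted grid in the Hilbert Schmidt norm, any signs.** -/
theorem HS1 {E : ℝ} (hE : ∀ p, M3 - 1 ≤ ix n p → ix n p ≤ M3 + 1 →
      ∑ i ∈ range n, ∑ x0 ∈ iv n T, HS (Lm Mx o x1 s (i + 1) x0 p) ≤ 2 ^ n * E)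
    {b : ℕ → ℝ} (hU : ∀ i < n, ∀ p, M3 - 1 ≤ ix n p → ix n p ≤ M3 + 1 →
      ∑ x0 ∈ iv n T, HS (Lm Mx o x1 s (i + 1) x0 p) ≤ b i)
    {Θ : ℝ} (hΘ : ∑ i ∈ range n, b i ≤ Θ * 2 ^ n)
    {W : ℕ → ℤ → ℤ → ℝ} {e : ℝ} (he : 0 ≤ e) (hW0 : ∀ k x0 y, 0 ≤ W k x0 y)
    (hW : ∀ k ≤ n, ∀ j y, ∑ x0 ∈ iv k j, W k x0 y ≤ e * 2 ^ k)
    (hWal : ∀ k x0 y, ¬ al k y → W k x0 y = 0) {v : ℤ → ι → ℝ} {V : ℝ} (hV : 0 ≤ V)
    (fib : ∀ k ≤ n, ∀ y ∈ iv n M3, al k y → ∑ y' ∈ iv k (ix k y), nsq (v y') ≤ V * 2 ^ k)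
    (L : ℕ) (sh : ℤ) :
    ∑ y ∈ iv n M3, ∑ k ∈ range (n + 1), ∑ x0 ∈ iv n T, W k x0 y *
      (HS (Rs Mx o x1 s n sh k x0 (ix k (y - sh)) - Rm Mx o x1 s n k x0 y) * nsq (v y)) ≤
      e * V * 4 ^ n * ((1152 + 24 * (L : ℝ) ^ 3) * E +
        8 * ((((L : ℝ) + 2) ^ 2 + 2) / 2 ^ L) * Θ) :=
  core (f := fun i x0 p => HS (Lm Mx o x1 s i x0 p)) (m := fun y => nsq (v y)) (al := al)
    (D := fun k x0 y => HS (Rs Mx o x1 s n sh k x0 (ix k (y - sh)) - Rm Mx o x1 s n k x0 y))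
    (fun _ _ _ => HS_nonneg _) (fun _ _ _ _ _ h0 hp => HS_Lm_cell h0 hp) hE hU hΘ he hW0 hW hWal
    (fun _ => nsq_nonneg _) hV fib L sh (fun _ hk x0 y => dev_HS n sh hk x0 y)

/-- **The deviation of the slot applied to any vectors `w` below `v`.** -/
theorem HS1_vec {W : ℕ → ℤ → ℤ → ℝ} (hW0 : ∀ k x0 y, 0 ≤ W k x0 y) {v : ℤ → ι → ℝ} (sh : ℤ)
    {c : ℝ} {w : ℕ → ℤ → ℤ → ι → ℝ}
    (hw : ∀ k x0 y, nsq (w k x0 y) ≤ c * nsq (v y)) :
    ∑ y ∈ iv n M3, ∑ k ∈ range (n + 1), ∑ x0 ∈ iv n T, W k x0 y *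
      nsq ((Rs Mx o x1 s n sh k x0 (ix k (y - sh)) - Rm Mx o x1 s n k x0 y) *ᵥ w k x0 y) ≤
      c * ∑ y ∈ iv n M3, ∑ k ∈ range (n + 1), ∑ x0 ∈ iv n T, W k x0 y *
        (HS (Rs Mx o x1 s n sh k x0 (ix k (y - sh)) - Rm Mx o x1 s n k x0 y) * nsq (v y)) := by
  simp only [mul_sum]
  refine sum_le_sum fun y _ => sum_le_sum fun k _ => sum_le_sum fun x0 _ => ?_
  have h1 := nsq_le_HS (Rs Mx o x1 s n sh k x0 (ix k (y - sh)) - Rm Mx o x1 s n k x0 y)
    (w k x0 y)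
  have h2 := mul_le_mul_of_nonneg_left (hw k x0 y)
    (HS_nonneg (Rs Mx o x1 s n sh k x0 (ix k (y - sh)) - Rm Mx o x1 s n k x0 y))
  refine (mul_le_mul_of_nonneg_left (h1.trans h2) (hW0 k x0 y)).trans (le_of_eq ?_)
  ring

end slot

end

end Vale.Agent.P141.H627
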